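import Vale.Agent.P146.H89.DeepO
import Vale.Agent.P146.H713.DeepCS

/-!
Plan R1, all `β`: the input `hF` of the end of the contradiction for the deep functionals of the
SK model, the choice of the layers being a parameter (`Q`).
-/

open MeasureTheory ProbabilityTheory

namespace Vale.Agent.P146.R1

open Vale.Agent.P157.Lv Vale.Agent.P146.H425 Vale.Agent.P146.H332 Vale.Agent.P146.H325
open Vale.Agent.P146.H946 (Dz Hz Tz)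

set_option linter.unusedSectionVars false

lemma Exs.mono {m : ℕ → ℝ} {J : ℕ} {x y : ℝ} (h : Exs m J y) (hx : 0 < x) (hxy : x ≤ y) :
    Exs m J x :=
  ⟨hx, hxy.trans h.x1, fun i hi => hxy.trans (h.ge i hi), h.le, h.anti⟩

/-- The data at the scale `(x, T, ρ)` for a deep system: `m`, `σ`, `J` its layers, which have the
property `Q`. -/
def PD (β : ℝ) (Q : ℝ → ℝ → ℕ → ℝ → (ℕ → ℝ) → (ℕ → ℝ) → ℕ → Prop) (c : ℝ) (n : ℕ)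
    (A T ρ x : ℝ) : Prop :=
  ∃ (a : ℝ) (m σ : ℕ → ℝ) (J : ℕ) (θ s1 s2 δ : ℝ) (hk : 0 < R1C.kk n β) (hE : Exs m J x),
    0 < a ∧ Q a c n A m σ J ∧ Lay n β m σ J ∧ FGrid n a x θ T ∧ 0 < θ ∧ θ ≤ 1 / 64 ∧
    (n : ℝ) ^ (-(1 / 6) : ℝ) ≤ x ∧
    R1C.Fo n β A δ T ρ ⟨x, θ, 1 - T, 1 - T / 2, s1, s2⟩ (R1S.deepCS n hk σ hE).F
      (R1S.deepCS n hk σ hE).A (R1S.deepCS n hk σ hE).DA

/-- **The input `hF` for the deep systems.** -/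
theorem deep_hF14 {β : ℝ} (hβ : 0 < β)
    (Q : ℝ → ℝ → ℕ → ℝ → (ℕ → ℝ) → (ℕ → ℝ) → ℕ → Prop)
    (hQ : ∀ c α a : ℝ, 0 < α → 100 * α ≤ c → 8 * c ≤ 1 / 10 → 0 < a → ∃ n₀ : ℕ, ∀ n : ℕ, n₀ ≤ n →
      ∃ (m σ : ℕ → ℝ) (J : ℕ), Lay n β m σ J ∧ Exs m J ((n : ℝ) ^ (-(1 / 12) : ℝ)) ∧
        Q a c n ((n : ℝ) ^ α) m σ J) :
    ∀ ε α c : ℝ, 0 < α → 100 * α ≤ c → 8 * c = ε → ε ≤ 1 / 10 → ∃ n₀ : ℕ, ∀ n : ℕ, n₀ ≤ n →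
      (n : ℝ) ^ (1 / 3 + ε : ℝ) ≤ Var[freeEnergy n β; disorder n] →
      ∃ T ρ x : ℝ, PD β Q c n ((n : ℝ) ^ α) T ρ x ∧ 0 < T ∧ T ≤ 1 ∧ 0 < ρ ∧
        2 * ρ ≤ β ^ 2 * n ∧ (n : ℝ) ^ (-(1 / 6) : ℝ) ≤ x ∧ x ≤ (n : ℝ) ^ (-(1 / 6) + α : ℝ) ∧
        (n : ℝ) ^ (ε - 3 * α) ≤ x ^ 2 * ρ * T ∧
        ((n : ℝ) ^ (-(1 / 100) : ℝ) ≤ T → 2 * ρ / (β ^ 2 * n) ≤ (n : ℝ) ^ (-(1 / 8) : ℝ)) := by
  intro ε α c hα h100 h8 hε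
  obtain ⟨a, ha, n₀, hout⟩ := deep_hF hβ ε α hα (by linarith) hε
  obtain ⟨n₁, hq⟩ := hQ c α a hα h100 (by linarith) ha
  refine ⟨max 1 (max n₀ n₁), fun n hn hV => ?_⟩
  have hn1 : 1 ≤ n := (le_max_left _ _).trans hn
  have hn0' : n₀ ≤ n := ((le_max_left _ _).trans (le_max_right _ _)).trans hn
  have hn1' : n₁ ≤ n := ((le_max_right _ _).trans (le_max_right _ _)).trans hn
  have hnr : (1 : ℝ) ≤ n := by exact_mod_cast hn1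
  obtain ⟨m, σ, J, hL, hE, hQ'⟩ := hq n hn1'
  obtain ⟨x, θ, T, s1, s2, ρ, δ, hg, -, h1, h2, h3, -, h4, h5, h6, -, h7, h8', h9, h10, h11, hS⟩ :=
    hout n hn0' m σ J hL hV
  have hk : 0 < R1C.kk n β := H946.kk_pos (by omega) hβ
  have hxy : x ≤ (n : ℝ) ^ (-(1 / 12) : ℝ) :=
    h9.trans (Real.rpow_le_rpow_of_exponent_le hnr (by linarith))
  have hE' : Exs m J x := hE.mono h7 hxy
  refine ⟨T, ρ, x, ⟨a, m, σ, J, θ, s1, s2, δ, hk, hE', ha, hQ', hL, hg, h1, h2, h8',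
    hS (R1S.deepCS n hk σ hE') rfl rfl⟩, h3, h4, h5, h6, h8', h9, ?_, h11⟩
  exact (Real.rpow_le_rpow_of_exponent_le hnr (by linarith)).trans h10

end Vale.Agent.P146.R1
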