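import Vale.Agent.P146.H713.Deep
import Vale.Agent.P146.H946.SkI

/-!
The deep functional of the SK model and the free energy: `F ≤ F~ ≤ F + β² n / 4 * ∑ σ²`, and the
comparison of the variances.
-/

open MeasureTheory ProbabilityTheory

namespace Vale.Agent.P146.R1

open Vale.Agent.P157.Lv Vale.Agent.P146.H425 Vale.Agent.P146.H332 Vale.Agent.P146.H325
open Vale.Agent.P146.H946 (Dz Hz Tz)

set_option linter.unusedSectionVars false

variable {n : ℕ} {m σ : ℕ → ℝ} {J : ℕ}

/-- the mean of the partition function -/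
lemma int_Zp_add (k s : ℝ) (z : Pair n → ℝ) : ∫ w, Zp k SkS (z + s • w) ∂(gI (Pair n)) =
    Real.exp (k ^ 2 * Fintype.card (Pair n) / 2 * s ^ 2) * Zp k SkS z := by
  have e1 : ∀ (w : Pair n → ℝ) (τ : Fin n → ℤˣ), ez k SkS (z + s • w) τ =
      ez k SkS z τ * Real.exp (∑ e, (k * s * SkS e τ) * w e) := by
    intro w τ
    unfold ez
    rw [← Real.exp_add]
    congr 1
    rw [Finset.mul_sum, Finset.mul_sum, ← Finset.sum_add_distrib]
    refine Finset.sum_congr rfl fun e _ => ?_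
    simp only [Pi.add_apply, Pi.smul_apply, smul_eq_mul]
    ring
  have e2 : ∀ τ : Fin n → ℤˣ, ∫ w, Real.exp (∑ e : Pair n, (k * s * SkS e τ) * w e)
      ∂(gI (Pair n)) = Real.exp (k ^ 2 * Fintype.card (Pair n) / 2 * s ^ 2) := by
    intro τ
    rw [H941.int_exp_lin]
    congr 1
    have e3 : ∀ e : Pair n, (k * s * SkS e τ) ^ 2 = k ^ 2 * s ^ 2 := by
      intro e
      have h1 : SkS e τ ^ 2 = 1 := by
        rw [← sq_abs, H946.abs_SkS]; norm_num
      rw [mul_pow, mul_pow, h1, mul_one]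
    simp only [e3, Finset.sum_const, Finset.card_univ, nsmul_eq_mul]
    ring
  have i1 : ∀ τ : Fin n → ℤˣ, Integrable (fun w : Pair n → ℝ => ez k SkS z τ *
      Real.exp (∑ e : Pair n, (k * s * SkS e τ) * w e)) (gI (Pair n)) := by
    intro τ
    refine Integrable.const_mul ?_ _
    by_contra hni
    have := e2 τ
    rw [integral_undef hni] at this
    exact absurd this (Real.exp_pos _).ne
  unfold Zp
  simp only [e1]
  rw [integral_finset_sum _ fun τ _ => i1 τ, Finset.mul_sum]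
  refine Finset.sum_congr rfl fun τ _ => ?_
  rw [integral_const_mul, e2, mul_comm]

/-- **The cost of a layer with the exponent `1`.** -/
theorem W_one_lz (k s : ℝ) (z : Pair n → ℝ) : W 1 s (lz k SkS) z =
    lz k SkS z + k ^ 2 * Fintype.card (Pair n) / 2 * s ^ 2 := by
  unfold W lz
  simp only [one_mul, div_one]
  have e1 : ∀ w : Pair n → ℝ, Real.exp (Real.log (Zp k SkS (z + s • w))) =
      Zp k SkS (z + s • w) := fun w => Real.exp_log (Zp_pos _ _ _)
  simp only [e1]
  rw [int_Zp_add, Real.log_mul (Real.exp_pos _).ne' (Zp_pos _ _ _).ne', Real.log_exp, add_comm]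

lemma card_le (n : ℕ) : (Fintype.card (Pair n) : ℝ) ≤ n * n / 2 := by
  have h2 := H946.card_Pair n
  have : (0 : ℝ) ≤ n := Nat.cast_nonneg n
  linarith

/-- **The deep functional of the SK model is close to the free energy.** -/
theorem FD_lz (hn : 0 < n) (β : ℝ) (hm : ∀ l < J, 0 < m l) (h1 : ∀ l < J, m l ≤ 1)
    (z : Pair n → ℝ) : lz (β / √n) SkS z ≤ FD (lz (β / √n) SkS) m σ J z ∧
      FD (lz (β / √n) SkS) m σ J z ≤ lz (β / √n) SkS z +
        β ^ 2 * n / 4 * ∑ l ∈ Finset.range J, σ l ^ 2 := by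
  have hn' : (0 : ℝ) < n := Nat.cast_pos.2 hn
  have h := c11_lz (β / √n) (SkS (n := n))
  refine ⟨le_FD h (cv_lz _ _) J hm z, FD_le h (fun s z => ?_) J hm h1 z⟩
  rw [W_one_lz, div_pow, Real.sq_sqrt hn'.le]
  have h2 : β ^ 2 / n * Fintype.card (Pair n) / 2 ≤ β ^ 2 * n / 4 := by
    have h3 : β ^ 2 / (n : ℝ) * Fintype.card (Pair n) ≤ β ^ 2 / n * (n * n / 2) :=
      mul_le_mul_of_nonneg_left (card_le n) (by positivity)
    have h4 : β ^ 2 / (n : ℝ) * (n * n / 2) = β ^ 2 * n / 2 := by field_simp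
    linarith
  have := mul_le_mul_of_nonneg_right h2 (sq_nonneg s)
  linarith

lemma eg_FD (k : ℝ) (hm : ∀ l < J, 0 < m l) : EG (FD (lz k (SkS (n := n))) m σ J) :=
  (c11_FD (c11_lz k SkS) J hm).eg

/-- the variance in the centred form -/
lemma var_form {κ : Type} [Fintype κ] {G : (κ → ℝ) → ℝ} (hG : EG G) :
    ∫ z, (G z - ∫ z', G z' ∂(gI κ)) ^ 2 ∂(gI κ) =
      ∫ z, G z ^ 2 ∂(gI κ) - (∫ z, G z ∂(gI κ)) ^ 2 := by
  set a := ∫ z', G z' ∂(gI κ) with ha
  have e : (fun z => (G z - a) ^ 2) = fun z => (G z ^ 2 + -(2 * a) * G z) + a ^ 2 := by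
    funext z; ring
  have i1 : Integrable (fun z => G z ^ 2) (gI κ) := (hG.pow 2).integrable
  have i2 : Integrable (fun z => -(2 * a) * G z) (gI κ) := hG.integrable.const_mul _
  have i3 : Integrable (fun z => G z ^ 2 + -(2 * a) * G z) (gI κ) := i1.add i2
  rw [e, integral_add i3 (integrable_const _), integral_add i1 i2, integral_const_mul]
  simp only [integral_const, probReal_univ, smul_eq_mul, one_mul]
  rw [← ha]
  ring

/-- **The variance of the free energy and of the deep functional.** -/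
theorem deep_var (hn : 0 < n) (β : ℝ) (hm : ∀ l < J, 0 < m l) (h1 : ∀ l < J, m l ≤ 1) {c : ℝ}
    (hc : β ^ 2 * n / 4 * ∑ l ∈ Finset.range J, σ l ^ 2 ≤ c) :
    Var[freeEnergy n β; disorder n] ≤
      2 * ∫ z : Pair n → ℝ, (FD (lz (β / √n) SkS) m σ J z -
        ∫ z' : Pair n → ℝ, FD (lz (β / √n) SkS) m σ J z' ∂(gI (Pair n))) ^ 2 ∂(gI (Pair n)) +
        2 * c ^ 2 := by
  have hF : EG (lz (β / √n) (SkS (n := n))) := (c11_lz (β / √n) SkS).eg
  have hG : EG (FD (lz (β / √n) (SkS (n := n))) m σ J) := eg_FD _ hm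
  have h2 := var_comp hF hG (a := c) (fun z => (FD_lz (σ := σ) hn β hm h1 z).1)
    (fun z => (FD_lz (σ := σ) hn β hm h1 z).2.trans (by linarith))
  rw [H946.sk_var, var_form hG]
  exact h2

end Vale.Agent.P146.R1
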