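import Vale.Agent.P146.H941.Deep
import Vale.Agent.P146.H946.SkR

/-!
The corner of plan R1 for a function `G` with `F ≤ G ≤ F + c`: the squared gradient of `G` at the
time `1 - T` under its tilted law is controlled by the free energies of `F` at the exponents `x`
and `2x`.
-/

open MeasureTheory ProbabilityTheory

namespace Vale.Agent.P146.R1

open Vale.Agent.P157.Lv Vale.Agent.P146.H425 Vale.Agent.P146.H332 Vale.Agent.P146.H325
open Vale.Agent.P146.H946 (Dz Hz Tz const_le_rpow x_facts sk_GG2)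

set_option linter.unusedSectionVars false

section gen

variable {κ : Type} [Fintype κ] {F G : (κ → ℝ) → ℝ} {D DG : κ → (κ → ℝ) → ℝ}
  {B B' L L' x t c : ℝ}

/-- Jensen: the squared gradient and the gain of the doubled exponent. -/
theorem Phi_phi (h : C11 G DG B' L') (hc : Cv G) (hx : 0 < x) (h0 : 0 ≤ t) (h1 : t ≤ 1) :
    x / 2 * ((1 - t) * Phi x G DG t) ≤ W (2 * x) 1 G 0 - W x 1 G 0 := by
  have hab : √t ^ 2 + √(1 - t) ^ 2 = 1 := by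
    rw [Real.sq_sqrt h0, Real.sq_sqrt (by linarith)]; ring
  have h2 := ut h hc hx hab
  rw [Real.sq_sqrt (show 0 ≤ 1 - t by linarith)] at h2
  have hA : 0 < ∫ z, Real.exp (x * G z) ∂(gI κ) := integral_exp_pos (h.eg_exp x).integrable
  have hW := h.W' hx (√(1 - t))
  have e0 : ∫ z, Real.exp (x * W x (√(1 - t)) G (√t • z)) ∂(gI κ) =
      ∫ z, Real.exp (x * G z) ∂(gI κ) := Nm_one h hx hab
  have q1 : EG fun z : κ → ℝ => Real.exp (x * W x (√(1 - t)) G (√t • z)) :=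
    EG.smul' (hW.eg_exp x) _
  have q2 : EG fun z : κ → ℝ => x ^ 2 / 2 * ((1 - t) * G2 x (√(1 - t)) G DG (√t • z)) :=
    ((EG.smul' hW.eg_G2 _).const_mul _).const_mul _
  have q3 : EG fun z : κ → ℝ =>
      Real.exp (x ^ 2 / 2 * ((1 - t) * G2 x (√(1 - t)) G DG (√t • z))) := by
    refine EG.of_bdd q2.meas.exp
      (C := Real.exp (x ^ 2 / 2 * ((1 - t) * (Fintype.card κ * B' ^ 2)))) fun y => ?_
    rw [abs_of_pos (Real.exp_pos _)]
    refine Real.exp_le_exp.2 ?_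
    have h3 := (G2_bd hW (√t • y)).2
    have h4 : 0 ≤ 1 - t := by linarith
    exact mul_le_mul_of_nonneg_left (mul_le_mul_of_nonneg_left h3 h4) (by positivity)
  have h5 := jensen_tilt (q := fun z : κ → ℝ => Real.exp (x * W x (√(1 - t)) G (√t • z)))
    (t := fun z : κ → ℝ => x ^ 2 / 2 * ((1 - t) * G2 x (√(1 - t)) G DG (√t • z))) q1
    (fun z => (Real.exp_pos _).le) (by rw [e0]; exact hA) q2 (q1.mul q3)
  have h6 := h5.trans h2
  rw [e0] at h6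
  have e1 : ∫ z, Real.exp (x * W x (√(1 - t)) G (√t • z)) *
      (x ^ 2 / 2 * ((1 - t) * G2 x (√(1 - t)) G DG (√t • z))) ∂(gI κ) =
      x ^ 2 / 2 * (1 - t) * H425.Nm x (√t) (√(1 - t)) G (G2 x (√(1 - t)) G DG) := by
    unfold H425.Nm
    rw [← integral_const_mul]
    exact integral_congr_ae (Filter.Eventually.of_forall fun z => by simp only; ring)
  rw [e1] at h6
  have e2 : ∫ z, Real.exp (x * G z) ∂(gI κ) = Real.exp (x * W x 1 G 0) := by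
    have e := h.lip.exp_W h.B0 hx (s := 1) 0
    simp only [zero_add, one_smul] at e
    exact e.symm
  have e3 : x ^ 2 / 2 * (1 - t) * H425.Nm x (√t) (√(1 - t)) G (G2 x (√(1 - t)) G DG) /
      ∫ z, Real.exp (x * G z) ∂(gI κ) = x ^ 2 / 2 * (1 - t) * Phi x G DG t := by
    unfold Phi
    rw [mul_div_assoc]
  rw [e3, e2, ← Real.exp_add, Real.exp_le_exp] at h6
  have h7 : x * (x / 2 * ((1 - t) * Phi x G DG t)) ≤ x * (W (2 * x) 1 G 0 - W x 1 G 0) := by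
    nlinarith
  exact le_of_mul_le_mul_left h7 hx

/-- **The comparison**: `(1 - t) Φ_G(t) ≤ ∫ Φ_F + 2 c / x`, the tilt of `F` being `2 x`. -/
theorem Phi_cmp (h : C11 F D B L) (hc : Cv F) (h' : C11 G DG B' L') (hc' : Cv G)
    (hl : ∀ z, F z ≤ G z) (hu : ∀ z, G z ≤ F z + c) (hx : 0 < x) (h0 : 0 ≤ t) (h1 : t ≤ 1) :
    (1 - t) * Phi x G DG t ≤ GG (2 * x) F D + 2 * c / x := by
  have h2 := Phi_phi h' hc' hx h0 h1
  have h3 := phi_two_le h hc hx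
  have hx2 : 0 < 2 * x := by positivity
  have hlc : LipB (fun z => F z + c) B := fun y w => by
    have := h.lip y w
    rwa [add_sub_add_right_eq_sub]
  have h4 : W (2 * x) 1 G 0 ≤ W (2 * x) 1 F 0 + c := by
    rw [← H941.W_add_const h.lip h.B0 hx2 c]
    exact H941.W_mono h'.lip h'.B0 hlc h.B0 hx2 hu 0
  have h5 : W x 1 F 0 ≤ W x 1 G 0 := H941.W_mono h.lip h.B0 h'.lip h'.B0 hx hl 0
  have h6 : x / 2 * ((1 - t) * Phi x G DG t) ≤ x / 2 * GG (2 * x) F D + c := by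
    unfold GG
    linarith
  have h7 : x / 2 * ((1 - t) * Phi x G DG t) ≤ x / 2 * (GG (2 * x) F D + 2 * c / x) := by
    refine h6.trans (le_of_eq ?_)
    field_simp
  exact le_of_mul_le_mul_left h7 (by positivity)

end gen

/-- **The corner `T ≥ n^{-c₀}` for a function `G` with `log Z ≤ G ≤ log Z + n^{1/3}`.** -/
theorem corner_cmp {β : ℝ} (hβ : β ≠ 0) {a c₀ b : ℝ} (ha0 : 0 ≤ a) (ha : a < 1 / 6)
    (habc : a + c₀ + b < 1 / 6) :
    ∃ n₀ : ℝ, 1 ≤ n₀ ∧ ∀ n : ℕ, n₀ ≤ (n : ℝ) → ∀ (G : (Pair n → ℝ) → ℝ)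
      (DG : Pair n → (Pair n → ℝ) → ℝ) (B L : ℝ), C11 G DG B L → Cv G →
      (∀ z, lz (β / √n) SkS z ≤ G z) → (∀ z, G z ≤ lz (β / √n) SkS z + (n : ℝ) ^ (1 / 3 : ℝ)) →
      ∀ x : ℝ, (n : ℝ) ^ (-(1 / 6) : ℝ) ≤ x → x ≤ (n : ℝ) ^ (-(1 / 6) + a) → ∀ T : ℝ, 0 < T →
      T ≤ 1 → (n : ℝ) ^ (-c₀) ≤ T →
      2 * Phi x G DG (1 - T) / (β ^ 2 * n) ≤ (n : ℝ) ^ (-b) := by
  obtain ⟨d, hd⟩ : ∃ d, d = (1 / 6 - (a + c₀ + b)) / 2 := ⟨_, rfl⟩
  have hd0 : 0 < d := by rw [hd]; linarith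
  obtain ⟨n₁, h11, h1⟩ := sk_GG2 hβ ha hd0
  obtain ⟨n₂, h21, h2⟩ := const_le_rpow (C := 6 / β ^ 2) hd0
  refine ⟨max n₁ n₂, h11.trans (le_max_left _ _), fun n hn G DG B L hG hcG hl hu x hx1 hx2 T hT
    hT1 hTc => ?_⟩
  have hn1 : (1 : ℝ) ≤ n := (h11.trans (le_max_left _ _)).trans hn
  have hn0 : (0 : ℝ) < n := by linarith
  obtain ⟨f1, f2, f3⟩ := x_facts hn1 ha.le hx1 hx2
  have g1 := (h1 n ((le_max_left _ _).trans hn) x hx1 hx2).2
  have g2 := h2 n ((le_max_right _ _).trans hn)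
  have g3 := Phi_cmp (c11_lz (β / √n) (SkS (n := n))) (cv_lz _ _) hG hcG hl hu f1
    (t := 1 - T) (by linarith) (by linarith)
  rw [sub_sub_cancel] at g3
  have g0 : 2 * (n : ℝ) ^ (1 / 3 : ℝ) / x ≤ 2 * (n : ℝ) ^ (5 / 6 + a + d) := by
    rw [div_le_iff₀ f1]
    have e1 : (n : ℝ) ^ (1 / 3 : ℝ) ≤ (n : ℝ) ^ (5 / 6 + a + d) * (n : ℝ) ^ (-(1 / 6) : ℝ) := by
      rw [← Real.rpow_add hn0]
      exact Real.rpow_le_rpow_of_exponent_le hn1 (by linarith)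
    have e2 : (n : ℝ) ^ (5 / 6 + a + d) * (n : ℝ) ^ (-(1 / 6) : ℝ) ≤
        (n : ℝ) ^ (5 / 6 + a + d) * x := mul_le_mul_of_nonneg_left hx1 (by positivity)
    linarith
  have g4 : T * Phi x G DG (1 - T) ≤ 3 * (n : ℝ) ^ (5 / 6 + a + d) := by linarith
  have hP : Phi x G DG (1 - T) ≤ 3 * (n : ℝ) ^ (5 / 6 + a + d + c₀) := by
    have g5 : Phi x G DG (1 - T) ≤ 3 * (n : ℝ) ^ (5 / 6 + a + d) / T := by
      rw [le_div_iff₀ hT, mul_comm]; exact g4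
    refine g5.trans ?_
    rw [div_le_iff₀ hT, Real.rpow_add hn0 (5 / 6 + a + d) c₀]
    have g6 : (n : ℝ) ^ c₀ * (n : ℝ) ^ (-c₀) = 1 := by
      rw [← Real.rpow_add hn0, add_neg_cancel, Real.rpow_zero]
    have g7 : (n : ℝ) ^ c₀ * (n : ℝ) ^ (-c₀) ≤ (n : ℝ) ^ c₀ * T :=
      mul_le_mul_of_nonneg_left hTc (by positivity)
    have g8 : 0 < (n : ℝ) ^ (5 / 6 + a + d) := by positivity
    nlinarith
  have hb2 : 0 < β ^ 2 := by positivity
  rw [div_le_iff₀ (by positivity)]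
  have e : (n : ℝ) ^ (-b) * (β ^ 2 * n) =
      β ^ 2 * ((n : ℝ) ^ d * (n : ℝ) ^ (5 / 6 + a + d + c₀)) := by
    rw [← Real.rpow_add hn0]
    have e2 : d + (5 / 6 + a + d + c₀) = -b + 1 := by rw [hd]; ring
    rw [e2, Real.rpow_add hn0, Real.rpow_one]
    ring
  rw [e]
  have g7 : 6 / β ^ 2 * (n : ℝ) ^ (5 / 6 + a + d + c₀) ≤
      (n : ℝ) ^ d * (n : ℝ) ^ (5 / 6 + a + d + c₀) :=
    mul_le_mul_of_nonneg_right g2 (by positivity)
  have g8 := mul_le_mul_of_nonneg_left g7 hb2.le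
  have e3 : β ^ 2 * (6 / β ^ 2 * (n : ℝ) ^ (5 / 6 + a + d + c₀)) =
      6 * (n : ℝ) ^ (5 / 6 + a + d + c₀) := by
    field_simp
  rw [e3] at g8
  linarith

end Vale.Agent.P146.R1
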