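import Vale.Agent.P146.H89.Rep

/-!
Bounds of the squared norms of represented tensors in terms of two-replica kernels.
-/

open MeasureTheory ProbabilityTheory

namespace Vale.Agent.P146.H89

open Vale.Agent.P157.Lv Vale.Agent.P146.H425 Vale.Agent.P146.H325

set_option linter.unusedSectionVars false

section fin

variable {Ω X : Type} [Fintype Ω] [Fintype X]

/-- the squared norm of a four-tensor with a signed weight -/
lemma tens4_abs {A B C D : Type} [Fintype A] [Fintype B] [Fintype C] [Fintype D] (M : Ω → ℝ)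
    (α : A → Ω → ℝ) (β : B → Ω → ℝ) (γ : C → Ω → ℝ) (δ : D → Ω → ℝ)
    {η : ℝ} (hη : 0 < η) :
    ∑ a, ∑ b, ∑ c, ∑ d, (∑ ω, M ω * (α a ω * β b ω * γ c ω * δ d ω)) ^ 2 ≤
      1 / 4 * (η⁻¹ ^ 3 * (∑ ω, ∑ ω', |M ω| * |M ω'| * kn α ω ω' ^ 4) +
        η * ((∑ ω, ∑ ω', |M ω| * |M ω'| * kn β ω ω' ^ 4) +
          (∑ ω, ∑ ω', |M ω| * |M ω'| * kn γ ω ω' ^ 4) +
            ∑ ω, ∑ ω', |M ω| * |M ω'| * kn δ ω ω' ^ 4)) := by
  rw [tens4]
  simp only [← Finset.sum_add_distrib, Finset.mul_sum]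
  refine Finset.sum_le_sum fun ω _ => Finset.sum_le_sum fun ω' _ => ?_
  have h2 := young_four hη |kn α ω ω'| |kn β ω ω'| |kn γ ω ω'| |kn δ ω ω'|
  have e : ∀ t : ℝ, |t| ^ 4 = t ^ 4 := fun t => by
    rw [show |t| ^ 4 = (|t| ^ 2) ^ 2 by ring, sq_abs]; ring
  rw [e, e, e, e] at h2
  have h3 : 0 ≤ |M ω| * |M ω'| := mul_nonneg (abs_nonneg _) (abs_nonneg _)
  have h4 := mul_le_mul_of_nonneg_left h2 h3
  have h5 : M ω * M ω' * (kn α ω ω' * (kn β ω ω' * (kn γ ω ω' * kn δ ω ω'))) ≤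
      |M ω| * |M ω'| * (|kn α ω ω'| * (|kn β ω ω'| * (|kn γ ω ω'| * |kn δ ω ω'|))) := by
    refine (le_abs_self _).trans (le_of_eq ?_)
    simp only [abs_mul]
  nlinarith [h4, h5]

/-- the squared norm of a two-tensor with a signed weight -/
lemma tens2_abs {A B : Type} [Fintype A] [Fintype B] (M : Ω → ℝ)
    (α : A → Ω → ℝ) (β : B → Ω → ℝ) :
    (∑ a, ∑ b, (∑ ω, M ω * (α a ω * β b ω)) ^ 2) ^ 2 ≤
      (∑ ω, |M ω|) ^ 2 * ∑ ω, ∑ ω', |M ω| * |M ω'| * (kn α ω ω' ^ 2 * kn β ω ω' ^ 2) := by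
  rw [tens2]
  have h1 : |∑ ω, ∑ ω', M ω * M ω' * (kn α ω ω' * kn β ω ω')| ≤
      ∑ ω, ∑ ω', |M ω| * |M ω'| * |kn α ω ω' * kn β ω ω'| := by
    refine (Finset.abs_sum_le_sum_abs _ _).trans (Finset.sum_le_sum fun ω _ => ?_)
    refine (Finset.abs_sum_le_sum_abs _ _).trans (Finset.sum_le_sum fun ω' _ => ?_)
    rw [abs_mul, abs_mul]
  have h2 : (∑ ω, ∑ ω', M ω * M ω' * (kn α ω ω' * kn β ω ω')) ^ 2 ≤
      (∑ ω, ∑ ω', |M ω| * |M ω'| * |kn α ω ω' * kn β ω ω'|) ^ 2 := by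
    rw [← sq_abs]
    exact pow_le_pow_left₀ (abs_nonneg _) h1 2
  refine h2.trans ?_
  have h3 := Finset.sum_mul_sq_le_sq_mul_sq (Finset.univ : Finset (Ω × Ω))
    (fun p => √(|M p.1| * |M p.2|))
    (fun p => √(|M p.1| * |M p.2|) * |kn α p.1 p.2 * kn β p.1 p.2|)
  have h0 : ∀ p : Ω × Ω, 0 ≤ |M p.1| * |M p.2| := fun p => mul_nonneg (abs_nonneg _) (abs_nonneg _)
  have e1 : ∀ p : Ω × Ω, √(|M p.1| * |M p.2|) * (√(|M p.1| * |M p.2|) *
      |kn α p.1 p.2 * kn β p.1 p.2|) = |M p.1| * |M p.2| * |kn α p.1 p.2 * kn β p.1 p.2| := by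
    intro p
    rw [← mul_assoc, Real.mul_self_sqrt (h0 p)]
  have e2 : ∀ p : Ω × Ω, √(|M p.1| * |M p.2|) ^ 2 = |M p.1| * |M p.2| :=
    fun p => Real.sq_sqrt (h0 p)
  have e3 : ∀ p : Ω × Ω, (√(|M p.1| * |M p.2|) * |kn α p.1 p.2 * kn β p.1 p.2|) ^ 2 =
      |M p.1| * |M p.2| * (kn α p.1 p.2 ^ 2 * kn β p.1 p.2 ^ 2) := by
    intro p
    rw [mul_pow, Real.sq_sqrt (h0 p), sq_abs, mul_pow]
  simp only [e1, e2, e3] at h3
  rw [Fintype.sum_prod_type, Fintype.sum_prod_type, Fintype.sum_prod_type] at h3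
  refine h3.trans (le_of_eq ?_)
  congr 1
  rw [sq, Finset.sum_mul_sum]

end fin

variable {ι : Type} [Fintype ι] [DecidableEq ι] {X : Type} [Fintype X]
  {S : ι → X → ℝ} {μ : (ι → ℝ) → X → ℝ}

/-- pairs of couplings -/
lemma RepD.pair {L : Type} [Fintype L] {C : ℝ} {φ : (L → ι) → (ι → ℝ) → ℝ} {Ω : Type}
    [Fintype Ω] {ν : (ι → ℝ) → Ω → ℝ} {p : L → Ω → X} (h : RepD S μ C φ ν p) (l l' : L)
    (hμ : ∀ z σ, 0 ≤ μ z σ) {Φ : X → X → ℝ} (hΦ : ∀ σ τ, 0 ≤ Φ σ τ) (z : ι → ℝ) :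
    ∑ ω, ∑ ω', |ν z ω| * |ν z ω'| * Φ (p l ω) (p l' ω') ≤ C ^ 2 * Qm (μ z) Φ := by
  have hC : 0 ≤ C := (Finset.sum_nonneg fun ω _ => abs_nonneg (ν z ω)).trans (h.tot z)
  calc ∑ ω, ∑ ω', |ν z ω| * |ν z ω'| * Φ (p l ω) (p l' ω')
      = ∑ ω, |ν z ω| * ∑ ω', |ν z ω'| * Φ (p l ω) (p l' ω') := by
        refine Finset.sum_congr rfl fun ω _ => ?_
        rw [Finset.mul_sum]
        exact Finset.sum_congr rfl fun ω' _ => by ring
    _ ≤ ∑ ω, |ν z ω| * (C * ∑ τ, μ z τ * Φ (p l ω) τ) :=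
        Finset.sum_le_sum fun ω _ => mul_le_mul_of_nonneg_left
          (h.mar z l' (fun τ => Φ (p l ω) τ) fun τ => hΦ _ τ) (abs_nonneg _)
    _ = C * ∑ ω, |ν z ω| * (fun σ => ∑ τ, μ z τ * Φ σ τ) (p l ω) := by
        rw [Finset.mul_sum]
        exact Finset.sum_congr rfl fun ω _ => by ring
    _ ≤ C * (C * ∑ σ, μ z σ * ∑ τ, μ z τ * Φ σ τ) := by
        refine mul_le_mul_of_nonneg_left ?_ hC
        exact h.mar z l (fun σ => ∑ τ, μ z τ * Φ σ τ) fun σ =>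
          Finset.sum_nonneg fun τ _ => mul_nonneg (hμ z τ) (hΦ σ τ)
    _ = C ^ 2 * Qm (μ z) Φ := by
        unfold Qm
        rw [← mul_assoc, ← sq]
        congr 1
        refine Finset.sum_congr rfl fun σ _ => ?_
        rw [Finset.mul_sum]
        exact Finset.sum_congr rfl fun τ _ => by ring

/-- a family of legs -/
def ls (S : ι → X → ℝ) {A : Type} (P : A → ι → ℝ) (a : A) (σ : X) : ℝ := ∑ e, P a e * S e σ

/-- the fourth moment of the kernel of a family of legs -/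
noncomputable def q4 (S : ι → X → ℝ) (m : X → ℝ) {A : Type} [Fintype A] (P : A → ι → ℝ) : ℝ :=
  Qm m fun σ τ => kn (ls S P) σ τ ^ 4

lemma q4_nonneg {m : X → ℝ} (hm : ∀ σ, 0 ≤ m σ) {A : Type} [Fintype A] (P : A → ι → ℝ) :
    0 ≤ q4 S m P := Qm_nonneg hm fun σ τ => by positivity

/-- the diagonal legs -/
def dgl (a : ι → ℝ) (g e : ι) : ℝ := if e = g then a g else 0

lemma ls_dgl (a : ι → ℝ) (g : ι) (σ : X) : ls S (dgl a) g σ = a g * S g σ := by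
  unfold ls dgl
  simp

/-- a four-leg field at four couplings -/
def f4 (φ : (Option (Option (Option Unit)) → ι) → (ι → ℝ) → ℝ) (h g f e : ι) (z : ι → ℝ) : ℝ :=
  φ (oc h (oc g (oc f fun _ => e))) z

/-- a two-leg field at two couplings -/
def f2 (φ : (Option Unit → ι) → (ι → ℝ) → ℝ) (f e : ι) (z : ι → ℝ) : ℝ :=
  φ (oc f fun _ => e) z

/-- **The fourth derivatives.** -/
theorem Rep.d4 {C : ℝ} {φ : (Option (Option (Option Unit)) → ι) → (ι → ℝ) → ℝ}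
    (hr : Rep S μ C φ) (hμ : ∀ z σ, 0 ≤ μ z σ) {A B : Type} [Fintype A] [Fintype B]
    (P : A → ι → ℝ) (Q : B → ι → ℝ) (a : ι → ℝ) (z : ι → ℝ) {η : ℝ} (hη : 0 < η) :
    ∑ i, ∑ j, ∑ g, ∑ h, (a g * a h * ∑ e, ∑ f, P i e * Q j f * f4 φ h g f e z) ^ 2 ≤
      C ^ 2 / 4 * (η⁻¹ ^ 3 * q4 S (μ z) P + η * (q4 S (μ z) Q + 2 * q4 S (μ z) (dgl a))) := by
  obtain ⟨Ω, _, ν, p, h⟩ := hr
  set l4 : Option (Option (Option Unit)) := none with hl4
  set l3 : Option (Option (Option Unit)) := some none with hl3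
  set l2 : Option (Option (Option Unit)) := some (some none) with hl2
  set l1 : Option (Option (Option Unit)) := some (some (some ())) with hl1
  have key := tens4_abs (ν z) (fun i ω => ls S P i (p l1 ω)) (fun j ω => ls S Q j (p l2 ω))
    (fun g ω => ls S (dgl a) g (p l3 ω)) (fun h ω => ls S (dgl a) h (p l4 ω)) hη
  have e1 : ∀ i j g h', ∑ ω, ν z ω * (ls S P i (p l1 ω) * ls S Q j (p l2 ω) *
      ls S (dgl a) g (p l3 ω) * ls S (dgl a) h' (p l4 ω)) =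
      a g * a h' * ∑ e, ∑ f, P i e * Q j f * f4 φ h' g f e z := by
    intro i j g h'
    have e2 : ∀ e f, f4 φ h' g f e z = ∑ ω, ν z ω * (S h' (p l4 ω) * (S g (p l3 ω) *
        (S f (p l2 ω) * S e (p l1 ω)))) := by
      intro e f
      unfold f4
      rw [h.rep]
      refine Finset.sum_congr rfl fun ω _ => ?_
      rw [Fintype.prod_option, Fintype.prod_option, Fintype.prod_option, Fintype.prod_unique]
      rfl
    simp only [e2]
    simp only [Finset.mul_sum]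
    rw [Finset.sum_congr rfl fun e _ => Finset.sum_comm, Finset.sum_comm]
    refine Finset.sum_congr rfl fun ω _ => ?_
    rw [ls_dgl, ls_dgl]
    unfold ls
    rw [Finset.sum_mul_sum]
    simp only [Finset.sum_mul, Finset.mul_sum]
    exact Finset.sum_congr rfl fun e _ => Finset.sum_congr rfl fun f _ => by ring
  simp only [e1] at key
  refine key.trans ?_
  have k1 : ∀ {A : Type} [Fintype A] (P : A → ι → ℝ) (l : Option (Option (Option Unit))),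
      ∑ ω, ∑ ω', |ν z ω| * |ν z ω'| * kn (fun i ω => ls S P i (p l ω)) ω ω' ^ 4 ≤
        C ^ 2 * q4 S (μ z) P := fun P l =>
    h.pair l l hμ (Φ := fun σ τ => kn (ls S P) σ τ ^ 4) (fun σ τ => by positivity) z
  have i1 := mul_le_mul_of_nonneg_left (k1 P l1) (by positivity : 0 ≤ η⁻¹ ^ 3)
  have i2 := mul_le_mul_of_nonneg_left (k1 Q l2) hη.le
  have i3 := mul_le_mul_of_nonneg_left (k1 (dgl a) l3) hη.le
  have i4 := mul_le_mul_of_nonneg_left (k1 (dgl a) l4) hη.le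
  nlinarith [i1, i2, i3, i4]

/-- **The second derivatives.** -/
theorem Rep.d2 {C : ℝ} {φ : (Option Unit → ι) → (ι → ℝ) → ℝ}
    (hr : Rep S μ C φ) (hμ : ∀ z σ, 0 ≤ μ z σ) {A B : Type} [Fintype A] [Fintype B]
    (P : A → ι → ℝ) (Q : B → ι → ℝ) (z : ι → ℝ) {η : ℝ} (hη : 0 < η) :
    (∑ i, ∑ j, (∑ e, ∑ f, P i e * Q j f * f2 φ f e z) ^ 2) ^ 2 ≤
      C ^ 4 / 2 * (η⁻¹ * q4 S (μ z) P + η * q4 S (μ z) Q) := by
  have hC := hr.nonneg
  obtain ⟨Ω, _, ν, p, h⟩ := hr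
  set l2 : Option Unit := none with hl2
  set l1 : Option Unit := some () with hl1
  have key := tens2_abs (ν z) (fun i ω => ls S P i (p l1 ω)) (fun j ω => ls S Q j (p l2 ω))
  have e1 : ∀ i j, ∑ ω, ν z ω * (ls S P i (p l1 ω) * ls S Q j (p l2 ω)) =
      ∑ e, ∑ f, P i e * Q j f * f2 φ f e z := by
    intro i j
    have e2 : ∀ e f, f2 φ f e z = ∑ ω, ν z ω * (S f (p l2 ω) * S e (p l1 ω)) := by
      intro e f
      unfold f2
      rw [h.rep]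
      refine Finset.sum_congr rfl fun ω _ => ?_
      rw [Fintype.prod_option, Fintype.prod_unique]
      rfl
    simp only [e2]
    simp only [Finset.mul_sum]
    rw [Finset.sum_congr rfl fun e _ => Finset.sum_comm, Finset.sum_comm]
    refine Finset.sum_congr rfl fun ω _ => ?_
    unfold ls
    rw [Finset.sum_mul_sum]
    simp only [Finset.mul_sum]
    exact Finset.sum_congr rfl fun e _ => Finset.sum_congr rfl fun f _ => by ring
  simp only [e1] at key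
  refine key.trans ?_
  have k1 : ∀ {A : Type} [Fintype A] (P : A → ι → ℝ) (l : Option Unit),
      ∑ ω, ∑ ω', |ν z ω| * |ν z ω'| * kn (fun i ω => ls S P i (p l ω)) ω ω' ^ 4 ≤
        C ^ 2 * q4 S (μ z) P := fun P l =>
    h.pair l l hμ (Φ := fun σ τ => kn (ls S P) σ τ ^ 4) (fun σ τ => by positivity) z
  have h2 : ∑ ω, ∑ ω', |ν z ω| * |ν z ω'| * (kn (fun i ω => ls S P i (p l1 ω)) ω ω' ^ 2 *
      kn (fun j ω => ls S Q j (p l2 ω)) ω ω' ^ 2) ≤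
      1 / 2 * (η⁻¹ * (∑ ω, ∑ ω', |ν z ω| * |ν z ω'| *
        kn (fun i ω => ls S P i (p l1 ω)) ω ω' ^ 4) +
        η * ∑ ω, ∑ ω', |ν z ω| * |ν z ω'| * kn (fun j ω => ls S Q j (p l2 ω)) ω ω' ^ 4) := by
    simp only [Finset.mul_sum, ← Finset.sum_add_distrib]
    refine Finset.sum_le_sum fun ω _ => Finset.sum_le_sum fun ω' _ => ?_
    have h2 := young_two hη (kn (fun i ω => ls S P i (p l1 ω)) ω ω' ^ 2)
      (kn (fun j ω => ls S Q j (p l2 ω)) ω ω' ^ 2)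
    have h3 : 0 ≤ |ν z ω| * |ν z ω'| := mul_nonneg (abs_nonneg _) (abs_nonneg _)
    have h4 := mul_le_mul_of_nonneg_left h2 h3
    nlinarith [h4]
  have h3 : (∑ ω, |ν z ω|) ^ 2 ≤ C ^ 2 :=
    pow_le_pow_left₀ (Finset.sum_nonneg fun _ _ => abs_nonneg _) (h.tot z) 2
  have h4 : 0 ≤ ∑ ω, ∑ ω', |ν z ω| * |ν z ω'| * (kn (fun i ω => ls S P i (p l1 ω)) ω ω' ^ 2 *
      kn (fun j ω => ls S Q j (p l2 ω)) ω ω' ^ 2) :=
    Finset.sum_nonneg fun _ _ => Finset.sum_nonneg fun _ _ => by positivity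
  have i1 := mul_le_mul_of_nonneg_left (k1 P l1) (by positivity : 0 ≤ η⁻¹)
  have i2 := mul_le_mul_of_nonneg_left (k1 Q l2) hη.le
  have h5 : ∑ ω, ∑ ω', |ν z ω| * |ν z ω'| * (kn (fun i ω => ls S P i (p l1 ω)) ω ω' ^ 2 *
      kn (fun j ω => ls S Q j (p l2 ω)) ω ω' ^ 2) ≤ 1 / 2 * (η⁻¹ * (C ^ 2 * q4 S (μ z) P) +
        η * (C ^ 2 * q4 S (μ z) Q)) := by linarith
  calc (∑ ω, |ν z ω|) ^ 2 * ∑ ω, ∑ ω', |ν z ω| * |ν z ω'| *
        (kn (fun i ω => ls S P i (p l1 ω)) ω ω' ^ 2 *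
          kn (fun j ω => ls S Q j (p l2 ω)) ω ω' ^ 2)
      ≤ C ^ 2 * (1 / 2 * (η⁻¹ * (C ^ 2 * q4 S (μ z) P) + η * (C ^ 2 * q4 S (μ z) Q))) :=
        mul_le_mul h3 h5 h4 (sq_nonneg C)
    _ = _ := by ring

end Vale.Agent.P146.H89
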