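import Vale.Agent.P146.H713.Deep
import Vale.Agent.P146.H946.SkO

/-!
The gradient of the deep functional of the SK model: its square is at most `β² n / 2`, and the
inner product of the gradients at two points is at least `- β² / 2`.
-/

open MeasureTheory ProbabilityTheory

namespace Vale.Agent.P146.R1

open Vale.Agent.P157.Lv Vale.Agent.P146.H425 Vale.Agent.P146.H332 Vale.Agent.P146.H325
open Vale.Agent.P146.H946 (Dz Hz Tz)

set_option linter.unusedSectionVars false

variable {n : ℕ} {k : ℝ} {m σ : ℕ → ℝ} {J : ℕ}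

/-- the deep two point functions -/
noncomputable def AD (k : ℝ) (m σ : ℕ → ℝ) (J : ℕ) (i j : Fin n) : (Pair n → ℝ) → ℝ :=
  TD (lz k SkS) m σ (H325.av k SkS (pr i j)) J

lemma AD_comm (i j : Fin n) (y : Pair n → ℝ) : AD k m σ J i j y = AD k m σ J j i y := by
  unfold AD
  rw [pr_comm]

lemma AD_self (hm : ∀ l < J, 0 < m l) (i : Fin n) (y : Pair n → ℝ) : AD k m σ J i i y = 1 := by
  unfold AD
  have e : H325.av k (SkS (n := n)) (pr i i) = fun _ => 1 :=
    funext fun u => H946.av_pr_self k u i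
  rw [e, TD_const (c11_lz k SkS) 1 J hm]

lemma abs_AD (hm : ∀ l < J, 0 < m l) (i j : Fin n) (y : Pair n → ℝ) : |AD k m σ J i j y| ≤ 1 := by
  unfold AD
  exact abs_TD_le (c11_lz k SkS) (eg_av k SkS _)
    (fun u => H325.abs_av_le k SkS (fun τ => (abs_pr i j τ).le) u) J hm y

/-- the matrix of the deep two point functions is positive semidefinite -/
lemma AD_psd (hm : ∀ l < J, 0 < m l) (y : Pair n → ℝ) (v : Fin n → ℝ) :
    0 ≤ ∑ i, ∑ j, v i * AD k m σ J i j y * v j := by
  have h := c11_lz k (SkS (n := n))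
  have h1 := TD_nonneg (m := m) (σ := σ) h
    (φ := fun u => ∑ p ∈ (Finset.univ : Finset (Fin n × Fin n)),
      (v p.1 * v p.2) * H325.av k SkS (pr p.1 p.2) u)
    (EG.sum _ fun p _ => (eg_av k SkS _).const_mul _) (fun u => by
      have h2 := H946.av_pr_psd k u v
      rw [← Finset.univ_product_univ, Finset.sum_product]
      refine h2.trans (le_of_eq ?_)
      exact Finset.sum_congr rfl fun i _ => Finset.sum_congr rfl fun j _ => by ring) J hm y
  rw [TD_lin h Finset.univ (fun p : Fin n × Fin n => v p.1 * v p.2)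
    (φ := fun p => H325.av k SkS (pr p.1 p.2)) (fun p _ => eg_av k SkS _) J hm] at h1
  simp only at h1
  rw [← Finset.univ_product_univ, Finset.sum_product] at h1
  refine h1.trans (le_of_eq ?_)
  exact Finset.sum_congr rfl fun i _ => Finset.sum_congr rfl fun j _ => by
    unfold AD
    ring

/-- the gradient of the deep functional -/
lemma TD_Dz (k : ℝ) (m σ : ℕ → ℝ) (J : ℕ) (e : Pair n) :
    TD (lz k SkS) m σ (Dz k e) J = fun y => k * AD k m σ J e.1.1 e.1.2 y := by
  have e1 : Dz (n := n) k e = fun u => k * H325.av k SkS (pr e.1.1 e.1.2) u := rfl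
  rw [e1, TD_const_mul]
  rfl

/-- **The squared gradient of the deep functional.** -/
theorem deep_grad (hn : 0 < n) (β : ℝ) (hm : ∀ l < J, 0 < m l) (z : Pair n → ℝ) :
    ∑ e, TD (lz (β / √n) SkS) m σ (Dz (β / √n) e) J z ^ 2 ≤ β ^ 2 / 2 * n := by
  have hn' : (0 : ℝ) < n := Nat.cast_pos.2 hn
  have h1 : ∀ e ∈ (Finset.univ : Finset (Pair n)),
      TD (lz (β / √n) SkS) m σ (Dz (β / √n) e) J z ^ 2 ≤ β ^ 2 / n := by
    intro e _
    rw [TD_Dz]
    simp only
    rw [mul_pow, div_pow, Real.sq_sqrt hn'.le]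
    have h2 : AD (β / √n) m σ J e.1.1 e.1.2 z ^ 2 ≤ 1 := by
      rw [← sq_abs]
      exact pow_le_one₀ (abs_nonneg _) (abs_AD hm _ _ z)
    have : 0 ≤ β ^ 2 / (n : ℝ) := by positivity
    nlinarith
  refine (Finset.sum_le_sum h1).trans ?_
  rw [Finset.sum_const, Finset.card_univ, nsmul_eq_mul]
  have h2 := H946.card_Pair n
  have h3 : (Fintype.card (Pair n) : ℝ) ≤ n * n / 2 := by linarith
  have : 0 ≤ β ^ 2 / (n : ℝ) := by positivity
  refine (mul_le_mul_of_nonneg_right h3 this).trans (le_of_eq ?_)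
  field_simp

/-- the inner product of the gradients at two points -/
lemma deep_inner (hm : ∀ l < J, 0 < m l) (y y' : Pair n → ℝ) :
    2 * ∑ e, TD (lz k SkS) m σ (Dz k e) J y * TD (lz k SkS) m σ (Dz k e) J y' =
      k ^ 2 * ((∑ i, ∑ j, AD k m σ J i j y * AD k m σ J i j y') - n) := by
  have h := sum_pairs (n := n) (fun p q => if p = q then (0 : ℝ) else
    AD k m σ J p q y * AD k m σ J p q y')
    (fun p q => by simp only [eq_comm (a := p), AD_comm p q]) (fun p => by simp)
  have e1 : ∀ e : Pair n, (if e.1.1 = e.1.2 then (0 : ℝ) else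
      AD k m σ J e.1.1 e.1.2 y * AD k m σ J e.1.1 e.1.2 y') =
      AD k m σ J e.1.1 e.1.2 y * AD k m σ J e.1.1 e.1.2 y' := fun e => if_neg e.2.ne
  simp only [e1] at h
  have e2 : ∀ p q : Fin n, (if p = q then (0 : ℝ) else
      AD k m σ J p q y * AD k m σ J p q y') =
      AD k m σ J p q y * AD k m σ J p q y' - if p = q then (1 : ℝ) else 0 := by
    intro p q
    by_cases hpq : p = q
    · subst hpq
      simp [AD_self hm]
    · simp [hpq]
  simp only [e2, Finset.sum_sub_distrib] at h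
  have e3 : ∑ p : Fin n, ∑ q : Fin n, (if p = q then (1 : ℝ) else 0) = n := by simp
  rw [e3] at h
  rw [h, Finset.mul_sum, Finset.mul_sum, Finset.mul_sum]
  refine Finset.sum_congr rfl fun e _ => ?_
  simp only [TD_Dz]
  ring

/-- (hK) the inner product of the gradients of the deep functional at two points is at least
`-β²/2` -/
theorem deep_hK (hn : 0 < n) (β : ℝ) (hm : ∀ l < J, 0 < m l) (y y' : Pair n → ℝ) :
    -(β ^ 2 / 2) ≤ ∑ e, TD (lz (β / √n) SkS) m σ (Dz (β / √n) e) J y *
      TD (lz (β / √n) SkS) m σ (Dz (β / √n) e) J y' := by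
  have hn' : (0 : ℝ) < n := Nat.cast_pos.2 hn
  have h1 := psd_mul_nonneg (A := fun i j => AD (β / √n) m σ J i j y)
    (B := fun i j => AD (β / √n) m σ J i j y')
    (fun i j => AD_comm i j y) (AD_psd hm y) (fun i j => AD_comm i j y') (AD_psd hm y')
  have h2 := deep_inner (k := β / √n) (σ := σ) hm y y'
  have hk2 : (β / √n) ^ 2 = β ^ 2 / n := by rw [div_pow, Real.sq_sqrt hn'.le]
  rw [hk2] at h2
  have h4 : β ^ 2 / n * (0 - n) ≤ β ^ 2 / n * ((∑ i, ∑ j, AD (β / √n) m σ J i j y *
      AD (β / √n) m σ J i j y') - n) :=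
    mul_le_mul_of_nonneg_left (by linarith) (by positivity)
  have h5 : β ^ 2 / (n : ℝ) * (0 - n) = -β ^ 2 := by field_simp; ring
  rw [h5] at h4
  linarith

end Vale.Agent.P146.R1
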