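import Vale.Agent.P146.H826.LawP
import Vale.Agent.P146.H89.D4

/-!
The inequalities (I1), (I2): the variance in a row of the second derivatives of a value function.
-/

open MeasureTheory ProbabilityTheory

namespace Vale.Agent.P146.H89

open Vale.Agent.P157.Lv Vale.Agent.P146.H425 Vale.Agent.P146.H325 Vale.Agent.P146.H712
  Vale.Agent.P146.R1C

set_option linter.unusedSectionVars false

variable {ι : Type} [Fintype ι] [DecidableEq ι]

/-! ### derivatives of row averages -/

lemma AvP_rp (s : ℝ) (R : Finset ι) (f : (ι → ℝ) → ℝ) (z : ι → ℝ) :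
    AvP s R f z = ∫ y, f (rp (fun e => if e ∈ R then 0 else z e)
      (fun e => if e ∈ R then √s else 0) y) ∂(gI ι) := by
  unfold AvP
  refine integral_congr_ae (Filter.Eventually.of_forall fun g => ?_)
  simp only
  congr 1
  funext e
  unfold rp sw
  by_cases h : e ∈ R <;> simp [h]

lemma AvP_Tc (s : ℝ) (R : Finset ι) (f : (ι → ℝ) → ℝ) (z : ι → ℝ) :
    AvP s R f z = Tc (fun e => if e ∈ R then s else 0) f
      (rp 0 (fun e => if e ∈ R then 0 else 1) z) := by
  unfold AvP Tc
  refine integral_congr_ae (Filter.Eventually.of_forall fun g => ?_)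
  simp only
  congr 1
  funext e
  unfold rp sw
  by_cases h : e ∈ R <;> simp [h]

/-- the factor of a derivative under a row average -/
def ou (R : Finset ι) (e : ι) : ℝ := if e ∈ R then 0 else 1

lemma ou_sq_le (R : Finset ι) (e : ι) : ou R e ^ 2 ≤ 1 := by
  unfold ou
  split_ifs <;> norm_num

lemma pd_AvP {f f' : (ι → ℝ) → ℝ} {e : ι} (hd : PD e f f') (hf : EG f) (hf' : EG f') (s : ℝ)
    (R : Finset ι) : PD e (AvP s R f) (fun z => ou R e * AvP s R f' z) := by
  have h := pd_rp (pd_Tc hd hf hf' (fun e => if e ∈ R then s else 0)) 0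
    (fun e => if e ∈ R then (0 : ℝ) else 1)
  have e1 : (fun z => Tc (fun e => if e ∈ R then s else 0) f
      (rp 0 (fun e => if e ∈ R then 0 else 1) z)) = AvP s R f := by
    funext z
    exact (AvP_Tc s R f z).symm
  rw [e1] at h
  refine h.congr fun z => ?_
  rw [← AvP_Tc]
  rfl

/-- derivatives of functions with a parity -/
lemma pd_par {f f' : (ι → ℝ) → ℝ} {e : ι} (hd : PD e f f') {ε : ι → ℝ} {κ : ℝ}
    (hε : ∀ i, ε i ^ 2 = 1) (h : ∀ z, f (fun i => ε i * z i) = κ * f z) (z : ι → ℝ) :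
    f' (fun i => ε i * z i) = ε e * κ * f' z := by
  have h1 : HasDerivAt (fun t => f (Function.update (fun i => ε i * z i) e t))
      (f' (fun i => ε i * z i)) (ε e * z e) := by
    have := hd (fun i => ε i * z i) (ε e * z e)
    rwa [Function.update_eq_self (f := fun i => ε i * z i)] at this
  have h2 : HasDerivAt (fun t => f (Function.update z e t)) (f' z) (z e) := by
    have := hd z (z e)
    rwa [Function.update_eq_self] at this
  have e1 : ∀ t, f (Function.update (fun i => ε i * z i) e t) =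
      κ * f (Function.update z e (ε e * t)) := by
    intro t
    rw [← h]
    congr 1
    funext i
    by_cases hi : i = e
    · subst hi
      simp only [Function.update_self]
      rw [← mul_assoc, ← sq, hε, one_mul]
    · simp only [Function.update_of_ne hi]
  have h3 : HasDerivAt (fun t : ℝ => ε e * t) (ε e) (ε e * z e) := by
    simpa using (hasDerivAt_id (ε e * z e)).const_mul (ε e)
  have h4 : ε e * (ε e * z e) = z e := by rw [← mul_assoc, ← sq, hε, one_mul]
  have h5 : HasDerivAt (fun t => κ * f (Function.update z e (ε e * t))) (κ * (f' z * ε e))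
      (ε e * z e) := by
    refine (HasDerivAt.comp (ε e * z e) (h₂ := fun t => f (Function.update z e t)) ?_ h3).const_mul κ
    rw [h4]
    exact h2
  have h6 : (fun t => f (Function.update (fun i => ε i * z i) e t)) =
      fun t => κ * f (Function.update z e (ε e * t)) := funext e1
  rw [h6] at h1
  rw [h1.unique h5]
  ring

/-- odd functions of the row have mean zero -/
lemma AvP_odd {f : (ι → ℝ) → ℝ} (hf : Measurable f) {ε : ι → ℝ} (hε : ∀ i, ε i ^ 2 = 1)
    {s : ℝ} {R : Finset ι} (hR : ∀ e ∉ R, ε e = 1)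
    (ho : ∀ z, f (fun i => ε i * z i) = -f z) (z : ι → ℝ) : AvP s R f z = 0 := by
  have h1 : Measurable fun g : ι → ℝ => f (sw R z (√s • g)) := by
    refine hf.comp (measurable_pi_lambda _ fun e => ?_)
    unfold sw
    split_ifs
    · simp only [Pi.smul_apply]
      fun_prop
    · fun_prop
  have h2 := int_flip hε h1
  have h3 : ∀ g : ι → ℝ, f (sw R z (√s • fun i => ε i * g i)) = -f (sw R z (√s • g)) := by
    intro g
    rw [← ho]
    congr 1
    funext e
    by_cases h : e ∈ R
    · simp only [sw, h, if_true, Pi.smul_apply, smul_eq_mul]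
      ring
    · simp only [sw, h, if_false]
      rw [hR e h, one_mul]
  simp only [h3] at h2
  rw [integral_neg] at h2
  show ∫ g, f (sw R z (√s • g)) ∂(gI ι) = 0
  linarith

/-- **The second order Poincaré inequality** in the row `R`, for a function averaged over `R'`. -/
theorem row_two {F0 : (ι → ℝ) → ℝ} {F1 : ι → (ι → ℝ) → ℝ} {F2 : ι → ι → (ι → ℝ) → ℝ}
    (h0 : EG F0) (h1 : ∀ e, EG (F1 e)) (h2 : ∀ e f, EG (F2 e f))
    (hd : ∀ e, PD e F0 (F1 e)) (hd1 : ∀ e f, PD f (F1 e) (F2 e f)) {ε : ι → ℝ}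
    (hε : ∀ i, ε i ^ 2 = 1) {R R' : Finset ι} (hR : ∀ e ∉ R, ε e = 1) (hR1 : ∀ e ∈ R, ε e = -1)
    (hev : ∀ z, F0 (fun i => ε i * z i) = F0 z) {s : ℝ} (hs : 0 ≤ s) (z : ι → ℝ) :
    AvP s R (fun v => (AvP s R' F0 v - AvP s (R ∪ R') F0 v) ^ 2) z ≤
      s ^ 2 * AvP s (R ∪ R') (fun v => ∑ e ∈ R, ∑ f ∈ R, F2 e f v ^ 2) z := by
  set a : ι → ℝ := fun e => if e ∈ R then √s else 0 with ha
  set p : ι → ℝ := fun e => if e ∈ R then 0 else z e with hp
  have hg0 := eg_AvP h0 s R'
  have hg1 : ∀ e, EG fun v => ou R' e * AvP s R' (F1 e) v :=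
    fun e => (eg_AvP (h1 e) s R').const_mul _
  have hg2 : ∀ e f, EG fun v => ou R' e * (ou R' f * AvP s R' (F2 e f) v) :=
    fun e f => ((eg_AvP (h2 e f) s R').const_mul _).const_mul _
  have hm : ∀ e, a e ≠ 0 → ∫ y, (fun v => ou R' e * AvP s R' (F1 e) v) (rp p a y) ∂(gI ι) = 0 := by
    intro e he
    have heR : e ∈ R := by
      by_contra h
      exact he (by simp [ha, h])
    have e1 : ∫ y, (fun v => ou R' e * AvP s R' (F1 e) v) (rp p a y) ∂(gI ι) =
        AvP s R (fun v => ou R' e * AvP s R' (F1 e) v) z :=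
      (AvP_rp s R (fun v => ou R' e * AvP s R' (F1 e) v) z).symm
    rw [e1, AvP_const_mul, AvP_AvP (h1 e)]
    have e2 : AvP s (R ∪ R') (F1 e) z = 0 := by
      refine AvP_odd (h1 e).meas hε (fun e he => hR e fun h => he (Finset.mem_union_left _ h))
        (fun v => ?_) z
      have := pd_par (hd e) hε (κ := 1) (fun z => by rw [hev, one_mul]) v
      rw [this, hR1 e heR]
      ring
    rw [e2, mul_zero]
  have key := poin2 hg0 hg1 hg2 (fun e => pd_AvP (hd e) h0 (h1 e) s R')
    (fun e f => (pd_AvP (hd1 e f) (h1 e) (h2 e f) s R').const_mul _) p a hm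
  have e0 : ∫ y', AvP s R' F0 (rp p a y') ∂(gI ι) = AvP s (R ∪ R') F0 z := by
    rw [← AvP_AvP h0]
    exact (AvP_rp s R _ z).symm
  rw [e0] at key
  -- the left side
  have hind : ∀ y, AvP s (R ∪ R') F0 (rp p a y) = AvP s (R ∪ R') F0 z := by
    intro y
    have h := ind_AvP s R (AvP s R' F0) z (√s • y)
    have e3 : AvP s R (AvP s R' F0) = AvP s (R ∪ R') F0 := funext fun v => AvP_AvP h0 v
    rw [e3] at h
    rw [← h]
    congr 1
    funext e
    by_cases he : e ∈ R <;> simp [rp, sw, hp, ha, he]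
  have eL : AvP s R (fun v => (AvP s R' F0 v - AvP s (R ∪ R') F0 v) ^ 2) z =
      ∫ y, (AvP s R' F0 (rp p a y) - AvP s (R ∪ R') F0 z) ^ 2 ∂(gI ι) := by
    rw [AvP_rp]
    refine integral_congr_ae (Filter.Eventually.of_forall fun y => ?_)
    simp only
    rw [hind y]
  rw [eL]
  refine key.trans ?_
  -- the right side
  have eT : ∀ e f, ∫ y, (a e * a f * (ou R' e * (ou R' f * AvP s R' (F2 e f) (rp p a y)))) ^ 2
      ∂(gI ι) ≤ (if e ∈ R then (if f ∈ R then s ^ 2 * AvP s (R ∪ R') (fun v => F2 e f v ^ 2) z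
        else 0) else 0) := by
    intro e f
    by_cases he : e ∈ R
    · by_cases hf : f ∈ R
      · rw [if_pos he, if_pos hf]
        have e4 : ∀ y, (a e * a f * (ou R' e * (ou R' f * AvP s R' (F2 e f) (rp p a y)))) ^ 2 =
            s ^ 2 * (ou R' e ^ 2 * ou R' f ^ 2 * AvP s R' (F2 e f) (rp p a y) ^ 2) := by
          intro y
          have : a e = √s ∧ a f = √s := ⟨by simp [ha, he], by simp [ha, hf]⟩
          rw [this.1, this.2]
          have h5 : √s * √s = s := Real.mul_self_sqrt hs
          calc (√s * √s * (ou R' e * (ou R' f * AvP s R' (F2 e f) (rp p a y)))) ^ 2 =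
              (√s * √s) ^ 2 * (ou R' e ^ 2 * ou R' f ^ 2 *
                AvP s R' (F2 e f) (rp p a y) ^ 2) := by ring
            _ = _ := by rw [h5]
        simp only [e4, integral_const_mul]
        refine mul_le_mul_of_nonneg_left ?_ (sq_nonneg s)
        have h6 : ou R' e ^ 2 * ou R' f ^ 2 ≤ 1 := by
          have := mul_le_mul (ou_sq_le R' e) (ou_sq_le R' f) (sq_nonneg _) zero_le_one
          simpa using this
        have h7 : ∫ y, AvP s R' (F2 e f) (rp p a y) ^ 2 ∂(gI ι) ≤
            AvP s (R ∪ R') (fun v => F2 e f v ^ 2) z := by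
          rw [← AvP_AvP ((h2 e f).pow 2), AvP_rp s R (AvP s R' fun v => F2 e f v ^ 2) z]
          refine integral_mono (eg_rp ((eg_AvP (h2 e f) s R').pow 2) p a).integrable
            (eg_rp (eg_AvP ((h2 e f).pow 2) s R') p a).integrable fun y => ?_
          exact AvP_sq_le (h2 e f) _
        have h8 : 0 ≤ ∫ y, AvP s R' (F2 e f) (rp p a y) ^ 2 ∂(gI ι) :=
          integral_nonneg fun _ => sq_nonneg _
        calc ou R' e ^ 2 * ou R' f ^ 2 * ∫ y, AvP s R' (F2 e f) (rp p a y) ^ 2 ∂(gI ι)
            ≤ 1 * ∫ y, AvP s R' (F2 e f) (rp p a y) ^ 2 ∂(gI ι) :=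
              mul_le_mul_of_nonneg_right h6 h8
          _ ≤ _ := by rw [one_mul]; exact h7
      · rw [if_pos he, if_neg hf]
        have : a f = 0 := by simp [ha, hf]
        simp [this]
    · rw [if_neg he]
      have : a e = 0 := by simp [ha, he]
      simp [this]
  refine (Finset.sum_le_sum fun e _ => Finset.sum_le_sum fun f _ => eT e f).trans (le_of_eq ?_)
  rw [AvP_sum (s := s) (R := R ∪ R') R fun e _ => EG.sum R fun f _ => (h2 e f).pow 2,
    Finset.mul_sum, ← Finset.sum_filter_add_sum_filter_not Finset.univ (fun e => e ∈ R)]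
  have e5 : ∑ e ∈ Finset.univ.filter (fun e => ¬ e ∈ R), ∑ f, (if e ∈ R then (if f ∈ R then
      s ^ 2 * AvP s (R ∪ R') (fun v => F2 e f v ^ 2) z else 0) else 0) = 0 := by
    refine Finset.sum_eq_zero fun e he => ?_
    rw [Finset.mem_filter] at he
    simp [he.2]
  rw [e5, add_zero, Finset.filter_mem_eq_inter, Finset.univ_inter]
  refine Finset.sum_congr rfl fun e he => ?_
  rw [AvP_sum (s := s) (R := R ∪ R') R fun f _ => (h2 e f).pow 2, Finset.mul_sum]
  simp only [he, if_true]
  rw [Finset.sum_ite_mem, Finset.univ_inter]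

end Vale.Agent.P146.H89
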