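import Vale.Agent.P146.H89.I12

/-!
The inequalities (I1), (I2) for a value function of a cascade.
-/

open MeasureTheory ProbabilityTheory

namespace Vale.Agent.P146.H89

open Vale.Agent.P157.Lv Vale.Agent.P146.H425 Vale.Agent.P146.H325 Vale.Agent.P146.H712
  Vale.Agent.P146.R1C

set_option linter.unusedSectionVars false

variable {ι : Type} [Fintype ι] [DecidableEq ι] {X : Type} [Fintype X]
  {S : ι → X → ℝ} {μ : (ι → ℝ) → X → ℝ} {k : ℝ}

/-- uniqueness of partial derivatives -/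
lemma PD_uniq {f f' f'' : (ι → ℝ) → ℝ} {e : ι} (h : PD e f f') (h' : PD e f f'') (z : ι → ℝ) :
    f' z = f'' z := by
  have h1 := h z (z e)
  have h2 := h' z (z e)
  rw [Function.update_eq_self] at h1 h2
  exact h1.unique h2

/-- the derivatives of a one-leg field -/
lemma TR.three {C : ℝ} {T1 : (Unit → ι) → (ι → ℝ) → ℝ} (h : TR S k μ 3 Unit C T1) :
    ∃ (φ2 : (Option Unit → ι) → (ι → ℝ) → ℝ) (φ3 : (Option (Option Unit) → ι) → (ι → ℝ) → ℝ)
      (φ4 : (Option (Option (Option Unit)) → ι) → (ι → ℝ) → ℝ),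
      (∀ e f, PD f (T1 e) (fun z => k * φ2 (oc f e) z)) ∧
      (∀ e f, PD f (φ2 e) (fun z => k * φ3 (oc f e) z)) ∧
      (∀ e f, PD f (φ3 e) (fun z => k * φ4 (oc f e) z)) ∧
      Rep S μ C T1 ∧ Rep S μ C φ2 ∧ Rep S μ C φ3 ∧ Rep S μ C φ4 := by
  obtain ⟨h0, φ2, hd2, h1, φ3, hd3, h2, φ4, hd4, h3⟩ := h
  exact ⟨φ2, φ3, φ4, hd2, hd3, hd4, h0, h1, h2, h3⟩

lemma eg_q4 (hμ : ∀ σ, EG fun z => μ z σ) {A : Type} [Fintype A] (P : A → ι → ℝ) :
    EG fun v => q4 S (μ v) P := by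
  have : (fun v => q4 S (μ v) P) = fun v => ∑ σ, ∑ τ, μ v σ * μ v τ * kn (ls S P) σ τ ^ 4 := rfl
  rw [this]
  exact EG.sum _ fun σ _ => EG.sum _ fun τ _ => ((hμ σ).mul (hμ τ)).mul (EG.const _)

/-- the couplings of a row as diagonal legs -/
noncomputable def rwl (R : Finset ι) : ι → ι → ℝ := dgl fun e => if e ∈ R then 1 else 0

/-- **(I1) and (I2)**, with general coefficients. -/
theorem i12 (hμ : ∀ σ, EG fun z => μ z σ) (hμ0 : ∀ z σ, 0 ≤ μ z σ) {C : ℝ}
    {T1 : (Unit → ι) → (ι → ℝ) → ℝ} (hT : TR S k μ 3 Unit C T1) (hk : k ≠ 0)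
    {H : ι → ι → (ι → ℝ) → ℝ} (hH : ∀ e f, PD f (T1 fun _ => e) (fun z => k * H f e z))
    {ε : ι → ℝ} (hε : ∀ i, ε i ^ 2 = 1) {R R' : Finset ι} (hR : ∀ e ∉ R, ε e = 1)
    (hR1 : ∀ e ∈ R, ε e = -1)
    (hev : ∀ e z, T1 (fun _ => e) (fun i => ε i * z i) = ε e * T1 (fun _ => e) z)
    {A B : Type} [Fintype A] [Fintype B] {P : A → ι → ℝ} {Q : B → ι → ℝ}
    (hP : ∀ i, ∀ e ∉ R, P i e = 0) (hQ : ∀ j, ∀ e ∉ R, Q j e = 0) {s : ℝ} (hs : 0 ≤ s)
    (z : ι → ℝ) {η : ℝ} (hη : 0 < η) :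
    AvP s R (fun v => ∑ i, ∑ j, (AvP s R' (fun v => ∑ e, ∑ f, P i e * Q j f * H f e v) v -
      AvP s (R ∪ R') (fun v => ∑ e, ∑ f, P i e * Q j f * H f e v) v) ^ 2) z ≤
      s ^ 2 * (k ^ 4 * (C ^ 2 / 4)) * AvP s (R ∪ R') (fun v => η⁻¹ ^ 3 * q4 S (μ v) P +
        η * (q4 S (μ v) Q + 2 * q4 S (μ v) (rwl R))) z := by
  obtain ⟨φ2, φ3, φ4, hd2, hd3, hd4, r1, r2, r3, r4⟩ := hT.three
  have hHe : ∀ f e, H f e = φ2 (oc f fun _ => e) := by
    intro f e
    funext v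
    have := PD_uniq (hH e f) (hd2 (fun _ => e) f) v
    exact mul_left_cancel₀ hk this
  have egH : ∀ f e, EG (H f e) := fun f e => by rw [hHe]; exact r2.eg _
  have hpar : ∀ f e v, H f e (fun i => ε i * v i) = ε f * ε e * H f e v := by
    intro f e v
    have := pd_par (hH e f) hε (hev e) v
    have h2 : k * H f e (fun i => ε i * v i) = k * (ε f * ε e * H f e v) := by
      rw [this]; ring
    exact mul_left_cancel₀ hk h2
  set F0 : A → B → (ι → ℝ) → ℝ := fun i j v => ∑ e, ∑ f, P i e * Q j f * H f e v with hF0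
  set F1 : A → B → ι → (ι → ℝ) → ℝ := fun i j g v => ∑ e, ∑ f, P i e * Q j f *
    (k * φ3 (oc g (oc f fun _ => e)) v) with hF1
  set F2 : A → B → ι → ι → (ι → ℝ) → ℝ := fun i j g h v => ∑ e, ∑ f, P i e * Q j f *
    (k * (k * f4 φ4 h g f e v)) with hF2
  have eg0 : ∀ i j, EG (F0 i j) := fun i j => EG.sum _ fun e _ => EG.sum _ fun f _ =>
    (egH f e).const_mul _
  have eg1 : ∀ i j g, EG (F1 i j g) := fun i j g => EG.sum _ fun e _ => EG.sum _ fun f _ =>
    ((r3.eg _).const_mul _).const_mul _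
  have eg2 : ∀ i j g h, EG (F2 i j g h) := fun i j g h => EG.sum _ fun e _ => EG.sum _ fun f _ =>
    (((r4.eg _).const_mul _).const_mul _).const_mul _
  have pd0 : ∀ i j g, PD g (F0 i j) (F1 i j g) := fun i j g =>
    PD.sum _ fun e _ => PD.sum _ fun f _ => by
      have := (hd3 (oc f fun _ => e) g).const_mul (P i e * Q j f)
      rw [← hHe] at this
      exact this
  have pd1 : ∀ i j g h, PD h (F1 i j g) (F2 i j g h) := fun i j g h =>
    PD.sum _ fun e _ => PD.sum _ fun f _ =>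
      ((hd4 (oc g (oc f fun _ => e)) h).const_mul k).const_mul (P i e * Q j f)
  have hev0 : ∀ i j v, F0 i j (fun i => ε i * v i) = F0 i j v := by
    intro i j v
    refine Finset.sum_congr rfl fun e _ => Finset.sum_congr rfl fun f _ => ?_
    rw [hpar]
    by_cases he : e ∈ R
    · by_cases hf : f ∈ R
      · rw [hR1 e he, hR1 f hf]; ring
      · rw [hQ j f hf]; ring
    · rw [hP i e he]; ring
  have key : ∀ i j, AvP s R (fun v => (AvP s R' (F0 i j) v - AvP s (R ∪ R') (F0 i j) v) ^ 2) z ≤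
      s ^ 2 * AvP s (R ∪ R') (fun v => ∑ e ∈ R, ∑ f ∈ R, F2 i j e f v ^ 2) z := fun i j =>
    row_two (eg0 i j) (eg1 i j) (eg2 i j) (pd0 i j) (pd1 i j) hε hR hR1 (hev0 i j) hs z
  have egl : ∀ i j, EG fun v => (AvP s R' (F0 i j) v - AvP s (R ∪ R') (F0 i j) v) ^ 2 :=
    fun i j => ((eg_AvP (eg0 i j) s R').sub (eg_AvP (eg0 i j) s (R ∪ R'))).pow 2
  have egr : ∀ i j, EG fun v => ∑ e ∈ R, ∑ f ∈ R, F2 i j e f v ^ 2 :=
    fun i j => EG.sum _ fun e _ => EG.sum _ fun f _ => (eg2 i j e f).pow 2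
  have hL : AvP s R (fun v => ∑ i, ∑ j, (AvP s R' (F0 i j) v -
      AvP s (R ∪ R') (F0 i j) v) ^ 2) z ≤
      s ^ 2 * AvP s (R ∪ R') (fun v => ∑ i, ∑ j, ∑ e ∈ R, ∑ f ∈ R, F2 i j e f v ^ 2) z := by
    rw [AvP_sum _ fun i _ => EG.sum _ fun j _ => egl i j,
      AvP_sum _ fun i _ => EG.sum _ fun j _ => egr i j, Finset.mul_sum]
    refine Finset.sum_le_sum fun i _ => ?_
    rw [AvP_sum _ fun j _ => egl i j, AvP_sum _ fun j _ => egr i j, Finset.mul_sum]
    exact Finset.sum_le_sum fun j _ => key i j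
  refine hL.trans ?_
  rw [mul_assoc]
  refine mul_le_mul_of_nonneg_left ?_ (sq_nonneg s)
  rw [← AvP_const_mul]
  refine AvP_mono (EG.sum _ fun i _ => EG.sum _ fun j _ => egr i j) ?_ (fun v => ?_) z
  · exact (((eg_q4 hμ P).const_mul _).add (((eg_q4 hμ Q).add
      ((eg_q4 hμ (rwl R)).const_mul _)).const_mul _)).const_mul _
  · have h4 := r4.d4 hμ0 P Q (fun e => if e ∈ R then 1 else 0) v hη
    have e1 : ∑ i, ∑ j, ∑ e ∈ R, ∑ f ∈ R, F2 i j e f v ^ 2 = k ^ 4 * ∑ i, ∑ j, ∑ g, ∑ h,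
        ((if g ∈ R then (1 : ℝ) else 0) * (if h ∈ R then 1 else 0) *
          ∑ e, ∑ f, P i e * Q j f * f4 φ4 h g f e v) ^ 2 := by
      rw [Finset.mul_sum]
      refine Finset.sum_congr rfl fun i _ => ?_
      rw [Finset.mul_sum]
      refine Finset.sum_congr rfl fun j _ => ?_
      rw [Finset.mul_sum]
      have e2 : ∀ g, k ^ 4 * ∑ h, ((if g ∈ R then (1 : ℝ) else 0) * (if h ∈ R then 1 else 0) *
          ∑ e, ∑ f, P i e * Q j f * f4 φ4 h g f e v) ^ 2 =
          if g ∈ R then ∑ f ∈ R, F2 i j g f v ^ 2 else 0 := by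
        intro g
        by_cases hg : g ∈ R
        · rw [Finset.mul_sum]
          have e3 : ∀ h, k ^ 4 * ((if g ∈ R then (1 : ℝ) else 0) * (if h ∈ R then 1 else 0) *
              ∑ e, ∑ f, P i e * Q j f * f4 φ4 h g f e v) ^ 2 =
              if h ∈ R then F2 i j g h v ^ 2 else 0 := by
            intro h
            by_cases hh : h ∈ R
            · rw [if_pos hg, if_pos hh, if_pos hh]
              have e5 : F2 i j g h v = k ^ 2 * ∑ e, ∑ f, P i e * Q j f * f4 φ4 h g f e v := by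
                show ∑ e, ∑ f, P i e * Q j f * (k * (k * f4 φ4 h g f e v)) = _
                simp only [Finset.mul_sum]
                exact Finset.sum_congr rfl fun e _ => Finset.sum_congr rfl fun f _ => by ring
              rw [e5]
              ring
            · rw [if_neg hh, if_neg hh]
              simp
          simp only [e3]
          rw [Finset.sum_ite_mem, Finset.univ_inter, if_pos hg]
        · simp [hg]
      simp only [e2]
      rw [Finset.sum_ite_mem, Finset.univ_inter]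
    rw [e1]
    rw [mul_assoc]
    exact mul_le_mul_of_nonneg_left h4 (by positivity)

end Vale.Agent.P146.H89
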