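import Mathlib

/-!
Finite tensor inequalities: squared norms of tensors `∑_ω M(ω) α_a(ω) β_b(ω) γ_c(ω) δ_d(ω)` in
terms of the kernels of the legs.
-/

namespace Vale.Agent.P146.H89

open Finset

variable {Ω X : Type} [Fintype Ω] [Fintype X]

/-- the kernel of a leg -/
def kn {A Y : Type} [Fintype A] (α : A → Y → ℝ) (ω ω' : Y) : ℝ := ∑ a, α a ω * α a ω'

lemma leg {B : Type} [Fintype B] (f : Ω → ℝ) (G : Ω → Ω → ℝ) (β : B → Ω → ℝ) :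
    ∑ b, ∑ ω, ∑ ω', (f ω * β b ω) * (f ω' * β b ω') * G ω ω' =
      ∑ ω, ∑ ω', f ω * f ω' * (kn β ω ω' * G ω ω') := by
  rw [Finset.sum_comm]
  refine Finset.sum_congr rfl fun ω _ => ?_
  rw [Finset.sum_comm]
  refine Finset.sum_congr rfl fun ω' _ => ?_
  unfold kn
  rw [Finset.sum_mul, Finset.mul_sum]
  exact Finset.sum_congr rfl fun b _ => by ring

lemma sq_as (f : Ω → ℝ) : (∑ ω, f ω) ^ 2 = ∑ ω, ∑ ω', f ω * f ω' * 1 := by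
  rw [sq, Finset.sum_mul_sum]
  simp

/-- two legs -/
lemma tens2 {A B : Type} [Fintype A] [Fintype B] (M : Ω → ℝ) (α : A → Ω → ℝ) (β : B → Ω → ℝ) :
    ∑ a, ∑ b, (∑ ω, M ω * (α a ω * β b ω)) ^ 2 =
      ∑ ω, ∑ ω', M ω * M ω' * (kn α ω ω' * kn β ω ω') := by
  have h1 : ∀ a, ∑ b, (∑ ω, M ω * (α a ω * β b ω)) ^ 2 =
      ∑ ω, ∑ ω', (M ω * α a ω) * (M ω' * α a ω') * kn β ω ω' := by
    intro a
    have h2 := leg (fun ω => M ω * α a ω) (fun _ _ => 1) β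
    simp only [mul_one] at h2
    rw [← h2]
    refine Finset.sum_congr rfl fun b _ => ?_
    rw [sq_as]
    simp only [mul_one, mul_assoc]
  simp_rw [h1]
  exact leg M (fun ω ω' => kn β ω ω') α

/-- four legs -/
lemma tens4 {A B C D : Type} [Fintype A] [Fintype B] [Fintype C] [Fintype D] (M : Ω → ℝ)
    (α : A → Ω → ℝ) (β : B → Ω → ℝ) (γ : C → Ω → ℝ) (δ : D → Ω → ℝ) :
    ∑ a, ∑ b, ∑ c, ∑ d, (∑ ω, M ω * (α a ω * β b ω * γ c ω * δ d ω)) ^ 2 =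
      ∑ ω, ∑ ω', M ω * M ω' * (kn α ω ω' * (kn β ω ω' * (kn γ ω ω' * kn δ ω ω'))) := by
  have h1 : ∀ a b, ∑ c, ∑ d, (∑ ω, M ω * (α a ω * β b ω * γ c ω * δ d ω)) ^ 2 =
      ∑ ω, ∑ ω', (M ω * α a ω * β b ω) * (M ω' * α a ω' * β b ω') *
        (kn γ ω ω' * kn δ ω ω') := by
    intro a b
    rw [← tens2 (fun ω => M ω * α a ω * β b ω) γ δ]
    refine Finset.sum_congr rfl fun c _ => Finset.sum_congr rfl fun d _ => ?_
    congr 1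
    exact Finset.sum_congr rfl fun ω _ => by ring
  simp_rw [h1]
  have h2 : ∀ a, ∑ b, ∑ ω, ∑ ω', (M ω * α a ω * β b ω) * (M ω' * α a ω' * β b ω') *
        (kn γ ω ω' * kn δ ω ω') = ∑ ω, ∑ ω', (M ω * α a ω) * (M ω' * α a ω') *
        (kn β ω ω' * (kn γ ω ω' * kn δ ω ω')) := fun a => leg _ _ _
  simp_rw [h2]
  exact leg _ _ _

/-! ### scalar inequalities -/

lemma young_four {η : ℝ} (hη : 0 < η) (A B C D : ℝ) :
    4 * (A * (B * (C * D))) ≤ η⁻¹ ^ 3 * A ^ 4 + η * (B ^ 4 + C ^ 4 + D ^ 4) := by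
  have h1 : 0 ≤ η * (η⁻¹ ^ 2 * A ^ 2 - B ^ 2) ^ 2 := by positivity
  have h2 : 0 ≤ η * (C ^ 2 - D ^ 2) ^ 2 := by positivity
  have h3 : 0 ≤ η⁻¹ * (A * B - η * (C * D)) ^ 2 := by positivity
  have e1 : η * η⁻¹ = 1 := mul_inv_cancel₀ hη.ne'
  have e2 : η * (η⁻¹ ^ 2 * A ^ 2 - B ^ 2) ^ 2 =
      η⁻¹ ^ 3 * A ^ 4 - 2 * (η⁻¹ * (A ^ 2 * B ^ 2)) + η * B ^ 4 := by
    have : η * (η⁻¹ ^ 2 * A ^ 2 - B ^ 2) ^ 2 = (η * η⁻¹) * η⁻¹ ^ 3 * A ^ 4 -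
      2 * ((η * η⁻¹) * η⁻¹ * (A ^ 2 * B ^ 2)) + η * B ^ 4 := by ring
    rw [this, e1]; ring
  have e3 : η⁻¹ * (A * B - η * (C * D)) ^ 2 =
      η⁻¹ * (A ^ 2 * B ^ 2) - 2 * (A * B * (C * D)) + η * (C ^ 2 * D ^ 2) := by
    have : η⁻¹ * (A * B - η * (C * D)) ^ 2 = η⁻¹ * (A ^ 2 * B ^ 2) -
      2 * ((η * η⁻¹) * (A * B * (C * D))) + (η * η⁻¹) * η * (C ^ 2 * D ^ 2) := by ring
    rw [this, e1]; ring
  nlinarith [h1, h2, h3, e2, e3]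

lemma young_two {η : ℝ} (hη : 0 < η) (A B : ℝ) :
    2 * (A * B) ≤ η⁻¹ * A ^ 2 + η * B ^ 2 := by
  have h3 : 0 ≤ η⁻¹ * (A - η * B) ^ 2 := by positivity
  have e1 : η * η⁻¹ = 1 := mul_inv_cancel₀ hη.ne'
  have e3 : η⁻¹ * (A - η * B) ^ 2 = η⁻¹ * A ^ 2 - 2 * (A * B) + η * B ^ 2 := by
    have : η⁻¹ * (A - η * B) ^ 2 = η⁻¹ * A ^ 2 -
      2 * ((η * η⁻¹) * (A * B)) + (η * η⁻¹) * η * B ^ 2 := by ring
    rw [this, e1]; ring
  linarith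

/-- fourth powers of sums -/
lemma sum_pow_four_le {R : Type} [Fintype R] (f : R → ℝ) :
    (∑ r, f r) ^ 4 ≤ (Fintype.card R : ℝ) ^ 3 * ∑ r, f r ^ 4 := by
  have h1 : (∑ r, f r) ^ 2 ≤ (Fintype.card R : ℝ) * ∑ r, f r ^ 2 := by
    have := sq_sum_le_card_mul_sum_sq (s := (Finset.univ : Finset R)) (f := f)
    simpa using this
  have h2 : (∑ r, f r ^ 2) ^ 2 ≤ (Fintype.card R : ℝ) * ∑ r, (f r ^ 2) ^ 2 := by
    have := sq_sum_le_card_mul_sum_sq (s := (Finset.univ : Finset R)) (f := fun r => f r ^ 2)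
    simpa using this
  have h3 : (∑ r, f r) ^ 4 = ((∑ r, f r) ^ 2) ^ 2 := by ring
  have h4 : ((∑ r, f r) ^ 2) ^ 2 ≤ ((Fintype.card R : ℝ) * ∑ r, f r ^ 2) ^ 2 :=
    pow_le_pow_left₀ (sq_nonneg _) h1 2
  have h5 : ∀ r, (f r ^ 2) ^ 2 = f r ^ 4 := fun r => by ring
  simp only [h5] at h2
  rw [h3]
  refine h4.trans ?_
  rw [mul_pow]
  calc (Fintype.card R : ℝ) ^ 2 * (∑ r, f r ^ 2) ^ 2 ≤
        (Fintype.card R : ℝ) ^ 2 * ((Fintype.card R : ℝ) * ∑ r, f r ^ 4) :=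
        mul_le_mul_of_nonneg_left h2 (sq_nonneg _)
    _ = _ := by ring

/-! ### push-forwards -/

/-- the push-forward of `M` under `π` is `m` -/
def Psh (M : Ω → ℝ) (π : Ω → X) (m : X → ℝ) : Prop :=
  ∀ φ : X → ℝ, ∑ ω, M ω * φ (π ω) = ∑ σ, m σ * φ σ

/-- the two-replica average -/
def Qm (m : X → ℝ) (Φ : X → X → ℝ) : ℝ := ∑ σ, ∑ τ, m σ * m τ * Φ σ τ

lemma Qm_nonneg {m : X → ℝ} (hm : ∀ σ, 0 ≤ m σ) {Φ : X → X → ℝ} (hΦ : ∀ σ τ, 0 ≤ Φ σ τ) :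
    0 ≤ Qm m Φ :=
  Finset.sum_nonneg fun σ _ => Finset.sum_nonneg fun τ _ =>
    mul_nonneg (mul_nonneg (hm σ) (hm τ)) (hΦ σ τ)

lemma Psh.mass {M : Ω → ℝ} {π : Ω → X} {m : X → ℝ} (h : Psh M π m) : ∑ ω, M ω = ∑ σ, m σ := by
  have := h fun _ => 1
  simpa using this

lemma Psh.pair {M : Ω → ℝ} {π π' : Ω → X} {m : X → ℝ} (h : Psh M π m) (h' : Psh M π' m)
    (Φ : X → X → ℝ) : ∑ ω, ∑ ω', M ω * M ω' * Φ (π ω) (π' ω') = Qm m Φ := by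
  have h1 : ∀ ω, ∑ ω', M ω * M ω' * Φ (π ω) (π' ω') = M ω * ∑ τ, m τ * Φ (π ω) τ := by
    intro ω
    rw [← h' fun τ => Φ (π ω) τ, Finset.mul_sum]
    exact Finset.sum_congr rfl fun ω' _ => by ring
  simp_rw [h1]
  rw [h fun σ => ∑ τ, m τ * Φ σ τ]
  unfold Qm
  refine Finset.sum_congr rfl fun σ _ => ?_
  rw [Finset.mul_sum]
  exact Finset.sum_congr rfl fun τ _ => by ring

section legs

variable {R : Type} [Fintype R] {M : Ω → ℝ} {m : X → ℝ} {π : R → Ω → X}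

/-- a leg which is a combination of the replicas -/
def lg {B : Type} (π : R → Ω → X) (c : R → ℝ) (h : B → X → ℝ) (b : B) (ω : Ω) : ℝ :=
  ∑ r, c r * h b (π r ω)

lemma kn_lg {B : Type} [Fintype B] (c : R → ℝ) (h : B → X → ℝ) (ω ω' : Ω) :
    kn (lg π c h) ω ω' = ∑ p : R × R, c p.1 * c p.2 * kn h (π p.1 ω) (π p.2 ω') := by
  unfold kn lg
  rw [Fintype.sum_prod_type]
  simp only [Finset.sum_mul_sum]
  rw [Finset.sum_comm]
  refine Finset.sum_congr rfl fun r _ => ?_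
  rw [Finset.sum_comm]
  refine Finset.sum_congr rfl fun r' _ => ?_
  rw [Finset.mul_sum]
  exact Finset.sum_congr rfl fun b _ => by ring

/-- the fourth moment of the kernel of a combined leg -/
lemma kn_lg_four {B : Type} [Fintype B] (hM : ∀ ω, 0 ≤ M ω) (hπ : ∀ r, Psh M (π r) m)
    {c : R → ℝ} {c0 : ℝ} (hc : ∀ r, |c r| ≤ c0) (h : B → X → ℝ) :
    ∑ ω, ∑ ω', M ω * M ω' * kn (lg π c h) ω ω' ^ 4 ≤
      ((Fintype.card R : ℝ) * c0) ^ 8 * Qm m fun σ τ => kn h σ τ ^ 4 := by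
  have hc0 : ∀ p : R × R, (c p.1 * c p.2) ^ 4 ≤ c0 ^ 8 := by
    intro p
    have h1 : |c p.1 * c p.2| ≤ c0 * c0 := by
      rw [abs_mul]
      exact mul_le_mul (hc _) (hc _) (abs_nonneg _) ((abs_nonneg _).trans (hc p.1))
    calc (c p.1 * c p.2) ^ 4 = |c p.1 * c p.2| ^ 4 := by
          rw [pow_abs]
          exact (abs_of_nonneg (by positivity)).symm
      _ ≤ (c0 * c0) ^ 4 := pow_le_pow_left₀ (abs_nonneg _) h1 4
      _ = c0 ^ 8 := by ring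
  have h1 : ∀ ω ω', kn (lg π c h) ω ω' ^ 4 ≤ (Fintype.card R : ℝ) ^ 6 *
      ∑ p : R × R, c0 ^ 8 * kn h (π p.1 ω) (π p.2 ω') ^ 4 := by
    intro ω ω'
    rw [kn_lg]
    refine (sum_pow_four_le _).trans ?_
    rw [Fintype.card_prod]
    push_cast
    have e : ((Fintype.card R : ℝ) * (Fintype.card R : ℝ)) ^ 3 = (Fintype.card R : ℝ) ^ 6 := by
      ring
    rw [e]
    refine mul_le_mul_of_nonneg_left (Finset.sum_le_sum fun p _ => ?_) (by positivity)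
    rw [mul_pow]
    exact mul_le_mul_of_nonneg_right (hc0 p) (by positivity)
  calc ∑ ω, ∑ ω', M ω * M ω' * kn (lg π c h) ω ω' ^ 4
      ≤ ∑ ω, ∑ ω', M ω * M ω' * ((Fintype.card R : ℝ) ^ 6 *
        ∑ p : R × R, c0 ^ 8 * kn h (π p.1 ω) (π p.2 ω') ^ 4) :=
        Finset.sum_le_sum fun ω _ => Finset.sum_le_sum fun ω' _ =>
          mul_le_mul_of_nonneg_left (h1 ω ω') (mul_nonneg (hM ω) (hM ω'))
    _ = ∑ p : R × R, (Fintype.card R : ℝ) ^ 6 * c0 ^ 8 *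
        ∑ ω, ∑ ω', M ω * M ω' * kn h (π p.1 ω) (π p.2 ω') ^ 4 := by
        simp only [Finset.mul_sum]
        rw [Finset.sum_congr rfl fun ω _ => Finset.sum_comm, Finset.sum_comm]
        refine Finset.sum_congr rfl fun p _ => Finset.sum_congr rfl fun ω _ =>
          Finset.sum_congr rfl fun ω' _ => ?_
        ring
    _ = ∑ _p : R × R, (Fintype.card R : ℝ) ^ 6 * c0 ^ 8 * Qm m fun σ τ => kn h σ τ ^ 4 := by
        refine Finset.sum_congr rfl fun p _ => ?_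
        rw [(hπ p.1).pair (hπ p.2) fun σ τ => kn h σ τ ^ 4]
    _ = _ := by
        rw [Finset.sum_const, Finset.card_univ, Fintype.card_prod, nsmul_eq_mul]
        push_cast
        ring

end legs

end Vale.Agent.P146.H89
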