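import Vale.Agent.P146.H325.Gibbs
import Vale.Agent.P146.H89.In0

/-!
Replica calculus: averages of functions of four replicas, their derivatives in the couplings.
-/

open MeasureTheory ProbabilityTheory

namespace Vale.Agent.P146.H89

open Vale.Agent.P157.Lv Vale.Agent.P146.H325

set_option linter.unusedSectionVars false

variable {ι : Type} [Fintype ι] [DecidableEq ι] {X : Type} [Fintype X] [Nonempty X]
  [DecidableEq X] (k : ℝ) (S : ι → X → ℝ) (x : ℝ)

/-- the Gibbs weight of a configuration -/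
noncomputable def gp (σ : X) (u : ι → ℝ) : ℝ := ez k S u σ / Zp k S u

lemma gp_pos (σ : X) (u : ι → ℝ) : 0 < gp k S σ u := div_pos (ez_pos k S u σ) (Zp_pos k S u)

lemma gp_eq (σ : X) : gp k S σ = av k S (fun τ => if τ = σ then 1 else 0) := by
  funext u
  unfold gp av
  simp

lemma av_gp (h : X → ℝ) (u : ι → ℝ) : av k S h u = ∑ σ, gp k S σ u * h σ := by
  unfold av gp
  rw [Finset.sum_div]
  exact Finset.sum_congr rfl fun σ _ => by ring

lemma gp_sum (u : ι → ℝ) : ∑ σ, gp k S σ u = 1 := by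
  have := av_gp k S (fun _ => 1) u
  rw [av_one] at this
  simpa using this.symm

lemma eg_gp (σ : X) : EG (gp k S σ) := by
  rw [gp_eq]
  exact eg_av k S _

lemma cont_gp (σ : X) : Continuous (gp k S σ) := by
  rw [gp_eq]
  exact cont_av k S _

lemma pd_gp (e : ι) (σ : X) : PD e (gp k S σ)
    (fun u => k * (gp k S σ u * (S e σ - av k S (S e) u))) := by
  have h := pd_av k S e (fun τ => if τ = σ then (1 : ℝ) else 0)
  rw [← gp_eq] at h
  refine h.congr fun u => ?_
  have h2 : av k S (fun τ => (if τ = σ then (1 : ℝ) else 0) * S e τ) u =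
      gp k S σ u * S e σ := by
    rw [av_gp]
    simp
  rw [h2]
  ring

/-- the weight of four replicas -/
noncomputable def p4 (ω : X × X × X × X) (u : ι → ℝ) : ℝ :=
  gp k S ω.1 u * gp k S ω.2.1 u * gp k S ω.2.2.1 u * gp k S ω.2.2.2 u

lemma p4_pos (ω : X × X × X × X) (u : ι → ℝ) : 0 < p4 k S ω u :=
  mul_pos (mul_pos (mul_pos (gp_pos k S _ u) (gp_pos k S _ u)) (gp_pos k S _ u)) (gp_pos k S _ u)

lemma eg_p4 (ω : X × X × X × X) : EG (p4 k S ω) :=
  (((eg_gp k S _).mul (eg_gp k S _)).mul (eg_gp k S _)).mul (eg_gp k S _)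

lemma pd_p4 (e : ι) (ω : X × X × X × X) : PD e (p4 k S ω)
    (fun u => k * (p4 k S ω u * (S e ω.1 + S e ω.2.1 + S e ω.2.2.1 + S e ω.2.2.2 -
      4 * av k S (S e) u))) := by
  refine ((((pd_gp k S e ω.1).mul (pd_gp k S e ω.2.1)).mul (pd_gp k S e ω.2.2.1)).mul
    (pd_gp k S e ω.2.2.2)).congr fun u => ?_
  unfold p4
  ring

lemma pd_Zx (e : ι) : PD e (Zx k S x) (fun u => k * (x * (Zx k S x u * av k S (S e) u))) :=
  pd_of_fd (fd_Zx k S x) e

lemma pd_Zp4 (e : ι) (ω : X × X × X × X) : PD e (fun u => Zx k S x u * p4 k S ω u)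
    (fun u => k * (Zx k S x u * (p4 k S ω u * (S e ω.1 + S e ω.2.1 + S e ω.2.2.1 + S e ω.2.2.2 +
      (x - 4) * av k S (S e) u)))) := by
  refine ((pd_Zx k S x e).mul (pd_p4 k S e ω)).congr fun u => ?_
  ring

/-- the average of a function of four replicas -/
noncomputable def av4 (G : X × X × X × X → ℝ) (u : ι → ℝ) : ℝ := ∑ ω, p4 k S ω u * G ω

lemma av4_quad (G : X × X × X × X → ℝ) (u : ι → ℝ) : av4 k S G u =
    ∑ a, ∑ b, ∑ c, ∑ d, gp k S a u * (gp k S b u * (gp k S c u * (gp k S d u *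
      G (a, b, c, d)))) := by
  unfold av4 p4
  rw [Fintype.sum_prod_type]
  refine Finset.sum_congr rfl fun a _ => ?_
  rw [Fintype.sum_prod_type]
  refine Finset.sum_congr rfl fun b _ => ?_
  rw [Fintype.sum_prod_type]
  refine Finset.sum_congr rfl fun c _ => Finset.sum_congr rfl fun d _ => ?_
  ring

lemma av4_add (F G : X × X × X × X → ℝ) (u : ι → ℝ) :
    av4 k S (fun ω => F ω + G ω) u = av4 k S F u + av4 k S G u := by
  unfold av4
  rw [← Finset.sum_add_distrib]
  exact Finset.sum_congr rfl fun ω _ => by ring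

lemma av4_mul (c : ℝ) (G : X × X × X × X → ℝ) (u : ι → ℝ) :
    av4 k S (fun ω => c * G ω) u = c * av4 k S G u := by
  unfold av4
  rw [Finset.mul_sum]
  exact Finset.sum_congr rfl fun ω _ => by ring

lemma eg_av4 (G : X × X × X × X → ℝ) : EG (av4 k S G) := by
  have : av4 k S G = fun u => ∑ ω, p4 k S ω u * G ω := rfl
  rw [this]
  exact EG.sum _ fun ω _ => (eg_p4 k S ω).mul (EG.const _)

/-- `G` does not depend on the fourth replica -/
def D3 (G : X × X × X × X → ℝ) : Prop := ∀ a b c d d', G (a, b, c, d) = G (a, b, c, d')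

/-- `G` does not depend on the third and fourth replicas -/
def D2 (G : X × X × X × X → ℝ) : Prop := ∀ a b c d c' d', G (a, b, c, d) = G (a, b, c', d')

lemma D2.d3 {G : X × X × X × X → ℝ} (h : D2 G) : D3 G := fun a b c d d' => h a b c d c d'

lemma sum_gp_mul (u : ι → ℝ) (c : ℝ) : ∑ σ, gp k S σ u * c = c := by
  rw [← Finset.sum_mul, gp_sum, one_mul]

lemma drop4 {G : X × X × X × X → ℝ} (hG : D3 G) (f : X → ℝ) (u : ι → ℝ) :
    av4 k S (fun ω => G ω * f ω.2.2.2) u = av k S f u * av4 k S G u := by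
  rw [av4_quad, av4_quad]
  simp only [Finset.mul_sum]
  refine Finset.sum_congr rfl fun a _ => Finset.sum_congr rfl fun b _ =>
    Finset.sum_congr rfl fun c _ => ?_
  obtain ⟨d0⟩ := (inferInstance : Nonempty X)
  have h1 : ∀ d, G (a, b, c, d) = G (a, b, c, d0) := fun d => hG a b c d d0
  simp only [h1]
  have h2 : ∑ d, gp k S a u * (gp k S b u * (gp k S c u * (gp k S d u *
      (G (a, b, c, d0) * f d)))) =
      (gp k S a u * gp k S b u * gp k S c u * G (a, b, c, d0)) * ∑ d, gp k S d u * f d := by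
    rw [Finset.mul_sum]
    exact Finset.sum_congr rfl fun d _ => by ring
  have h3 : ∑ d, av k S f u * (gp k S a u * (gp k S b u * (gp k S c u * (gp k S d u *
      G (a, b, c, d0))))) =
      (gp k S a u * gp k S b u * gp k S c u * G (a, b, c, d0)) * av k S f u := by
    have : ∀ d, av k S f u * (gp k S a u * (gp k S b u * (gp k S c u * (gp k S d u *
      G (a, b, c, d0))))) = gp k S d u * ((gp k S a u * gp k S b u * gp k S c u *
        G (a, b, c, d0)) * av k S f u) := fun d => by ring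
    simp only [this]
    rw [sum_gp_mul]
  rw [h2, h3, ← av_gp]

lemma drop3 {G : X × X × X × X → ℝ} (hG : D2 G) (f : X → ℝ) (u : ι → ℝ) :
    av4 k S (fun ω => G ω * f ω.2.2.1) u = av k S f u * av4 k S G u := by
  rw [av4_quad, av4_quad]
  simp only [Finset.mul_sum]
  refine Finset.sum_congr rfl fun a _ => Finset.sum_congr rfl fun b _ => ?_
  obtain ⟨d0⟩ := (inferInstance : Nonempty X)
  have h1 : ∀ c d, G (a, b, c, d) = G (a, b, d0, d0) := fun c d => hG a b c d d0 d0
  simp only [h1]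
  have h2 : ∑ c, ∑ d, gp k S a u * (gp k S b u * (gp k S c u * (gp k S d u *
      (G (a, b, d0, d0) * f c)))) =
      (gp k S a u * gp k S b u * G (a, b, d0, d0)) * ∑ c, gp k S c u * f c := by
    rw [Finset.mul_sum]
    refine Finset.sum_congr rfl fun c _ => ?_
    have : ∀ d, gp k S a u * (gp k S b u * (gp k S c u * (gp k S d u *
      (G (a, b, d0, d0) * f c)))) = gp k S d u * (gp k S a u * gp k S b u *
        G (a, b, d0, d0) * (gp k S c u * f c)) := fun d => by ring
    simp only [this]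
    rw [sum_gp_mul]
  have h3 : ∑ c, ∑ d, av k S f u * (gp k S a u * (gp k S b u * (gp k S c u * (gp k S d u *
      G (a, b, d0, d0))))) =
      (gp k S a u * gp k S b u * G (a, b, d0, d0)) * av k S f u := by
    have : ∀ c, ∑ d, av k S f u * (gp k S a u * (gp k S b u * (gp k S c u * (gp k S d u *
      G (a, b, d0, d0))))) = gp k S c u * ((gp k S a u * gp k S b u *
        G (a, b, d0, d0)) * av k S f u) := by
      intro c
      have : ∀ d, av k S f u * (gp k S a u * (gp k S b u * (gp k S c u * (gp k S d u *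
        G (a, b, d0, d0))))) = gp k S d u * (gp k S c u * ((gp k S a u * gp k S b u *
          G (a, b, d0, d0)) * av k S f u)) := fun d => by ring
      simp only [this]
      rw [sum_gp_mul]
    simp only [this]
    rw [sum_gp_mul]
  rw [h2, h3, ← av_gp]

/-- the derivative of `Z^x ⟨G⟩` -/
lemma pd_Zav4 (e : ι) (G : X × X × X × X → ℝ) : PD e (fun u => Zx k S x u * av4 k S G u)
    (fun u => k * (Zx k S x u * (av4 k S (fun ω => G ω * (S e ω.1 + S e ω.2.1 + S e ω.2.2.1 +
      S e ω.2.2.2)) u + (x - 4) * (av k S (S e) u * av4 k S G u)))) := by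
  have h1 : (fun u => Zx k S x u * av4 k S G u) = fun u => ∑ ω, G ω * (Zx k S x u * p4 k S ω u) := by
    funext u
    unfold av4
    rw [Finset.mul_sum]
    exact Finset.sum_congr rfl fun ω _ => by ring
  rw [h1]
  refine (PD.sum Finset.univ fun ω _ => (pd_Zp4 k S x e ω).const_mul (G ω)).congr fun u => ?_
  unfold av4
  rw [Finset.mul_sum, Finset.mul_sum, ← Finset.sum_add_distrib, Finset.mul_sum, Finset.mul_sum]
  exact Finset.sum_congr rfl fun ω _ => by ring

/-- the third leg -/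
def l3 (e : ι) (ω : X × X × X × X) : ℝ := S e ω.1 + S e ω.2.1 + (x - 2) * S e ω.2.2.1

/-- the fourth leg -/
def l4 (e : ι) (ω : X × X × X × X) : ℝ :=
  S e ω.1 + S e ω.2.1 + S e ω.2.2.1 + (x - 3) * S e ω.2.2.2

lemma d3_l3 (e : ι) : D3 (l3 S x e) := fun _ _ _ _ _ => rfl

lemma D3.mul {F G : X × X × X × X → ℝ} (hF : D3 F) (hG : D3 G) : D3 (fun ω => F ω * G ω) :=
  fun a b c d d' => by simp only [hF a b c d d', hG a b c d d']

lemma pd_d2 (e : ι) {G : X × X × X × X → ℝ} (hG : D2 G) :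
    PD e (fun u => Zx k S x u * av4 k S G u)
      (fun u => k * (Zx k S x u * av4 k S (fun ω => G ω * l3 S x e ω) u)) := by
  refine (pd_Zav4 k S x e G).congr fun u => ?_
  have e1 : (fun ω => G ω * l3 S x e ω) = fun ω => G ω * (S e ω.1 + S e ω.2.1) +
      (x - 2) * (G ω * S e ω.2.2.1) := by
    funext ω
    unfold l3
    ring
  have e2 : (fun ω => G ω * (S e ω.1 + S e ω.2.1 + S e ω.2.2.1 + S e ω.2.2.2)) =
      fun ω => G ω * (S e ω.1 + S e ω.2.1) + (G ω * S e ω.2.2.1 + G ω * S e ω.2.2.2) := by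
    funext ω
    ring
  rw [e1, e2, av4_add, av4_add, av4_add, av4_mul, drop4 k S hG.d3 (S e), drop3 k S hG (S e)]
  ring

lemma pd_d3 (e : ι) {G : X × X × X × X → ℝ} (hG : D3 G) :
    PD e (fun u => Zx k S x u * av4 k S G u)
      (fun u => k * (Zx k S x u * av4 k S (fun ω => G ω * l4 S x e ω) u)) := by
  refine (pd_Zav4 k S x e G).congr fun u => ?_
  have e1 : (fun ω => G ω * l4 S x e ω) = fun ω => G ω * (S e ω.1 + S e ω.2.1 + S e ω.2.2.1) +
      (x - 3) * (G ω * S e ω.2.2.2) := by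
    funext ω
    unfold l4
    ring
  have e2 : (fun ω => G ω * (S e ω.1 + S e ω.2.1 + S e ω.2.2.1 + S e ω.2.2.2)) =
      fun ω => G ω * (S e ω.1 + S e ω.2.1 + S e ω.2.2.1) + G ω * S e ω.2.2.2 := by
    funext ω
    ring
  rw [e1, e2, av4_add, av4_add, av4_mul, drop4 k S hG (S e)]
  ring

/-! ### marginals -/

/-- the four replicas -/
def π4 : Fin 4 → X × X × X × X → X :=
  ![fun ω => ω.1, fun ω => ω.2.1, fun ω => ω.2.2.1, fun ω => ω.2.2.2]

variable {k S} in
lemma sg {u : ι → ℝ} {A : X → ℝ} (c : ℝ) (h : ∀ σ, A σ = gp k S σ u * c) : ∑ σ, A σ = c := by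
  simp only [h]
  exact sum_gp_mul k S u c

lemma mar4 (r : Fin 4) (φ : X → ℝ) (u : ι → ℝ) :
    av4 k S (fun ω => φ (π4 r ω)) u = av k S φ u := by
  rw [av4_quad, av_gp]
  fin_cases r
  · show ∑ a, ∑ b, ∑ c, ∑ d, gp k S a u * (gp k S b u * (gp k S c u * (gp k S d u * φ a))) = _
    refine Finset.sum_congr rfl fun a _ => ?_
    refine sg (k := k) (S := S) (u := u) (gp k S a u * φ a) fun b => ?_
    refine sg (k := k) (S := S) (u := u) (gp k S b u * (gp k S a u * φ a)) fun c => ?_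
    exact sg (k := k) (S := S) (u := u) (gp k S c u * (gp k S b u * (gp k S a u * φ a))) fun d => by ring
  · show ∑ a, ∑ b, ∑ c, ∑ d, gp k S a u * (gp k S b u * (gp k S c u * (gp k S d u * φ b))) = _
    refine sg (k := k) (S := S) (u := u) _ fun a => ?_
    rw [Finset.mul_sum]
    refine Finset.sum_congr rfl fun b _ => ?_
    refine sg (k := k) (S := S) (u := u) (gp k S a u * (gp k S b u * φ b)) fun c => ?_
    exact sg (k := k) (S := S) (u := u) (gp k S c u * (gp k S a u * (gp k S b u * φ b))) fun d => by ring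
  · show ∑ a, ∑ b, ∑ c, ∑ d, gp k S a u * (gp k S b u * (gp k S c u * (gp k S d u * φ c))) = _
    refine sg (k := k) (S := S) (u := u) _ fun a => ?_
    rw [← sg (k := k) (S := S) (u := u) (gp k S a u * ∑ c, gp k S c u * φ c) fun σ => rfl]
    refine Finset.sum_congr rfl fun b _ => ?_
    rw [Finset.mul_sum, Finset.mul_sum]
    refine Finset.sum_congr rfl fun c _ => ?_
    exact sg (k := k) (S := S) (u := u) (gp k S b u * (gp k S a u * (gp k S c u * φ c))) fun d => by ring
  · show ∑ a, ∑ b, ∑ c, ∑ d, gp k S a u * (gp k S b u * (gp k S c u * (gp k S d u * φ d))) = _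
    refine sg (k := k) (S := S) (u := u) _ fun a => ?_
    refine sg (k := k) (S := S) (u := u) _ fun b => ?_
    refine sg (k := k) (S := S) (u := u) _ fun c => ?_
    rw [Finset.mul_sum, Finset.mul_sum, Finset.mul_sum]
    exact Finset.sum_congr rfl fun d _ => by ring

/-! ### flips -/

/-- a flip: a permutation of the configurations which changes the signs of some couplings -/
structure Fl (S : ι → X → ℝ) (ε : ι → ℝ) (π : Equiv.Perm X) : Prop where
  sq : ∀ e, ε e ^ 2 = 1
  S : ∀ e σ, S e (π σ) = ε e * S e σ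

variable {k S x}

lemma Fl.ez {ε : ι → ℝ} {π : Equiv.Perm X} (h : Fl S ε π) (u : ι → ℝ) (σ : X) :
    ez k S (fun e => ε e * u e) σ = ez k S u (π σ) := by
  unfold H325.ez
  congr 2
  refine Finset.sum_congr rfl fun e _ => ?_
  rw [h.S]
  ring

lemma Fl.Zp {ε : ι → ℝ} {π : Equiv.Perm X} (h : Fl S ε π) (u : ι → ℝ) :
    Zp k S (fun e => ε e * u e) = Zp k S u := by
  unfold H325.Zp
  rw [← Equiv.sum_comp π fun σ => H325.ez k S u σ]
  exact Finset.sum_congr rfl fun σ _ => h.ez u σ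

lemma Fl.Zx {ε : ι → ℝ} {π : Equiv.Perm X} (h : Fl S ε π) (u : ι → ℝ) :
    Zx k S x (fun e => ε e * u e) = Zx k S x u := by
  unfold H325.Zx
  rw [h.Zp]

lemma Fl.gp {ε : ι → ℝ} {π : Equiv.Perm X} (h : Fl S ε π) (u : ι → ℝ) (σ : X) :
    gp k S σ (fun e => ε e * u e) = gp k S (π σ) u := by
  unfold H89.gp
  rw [h.Zp, h.ez]

/-- the flip of four replicas -/
def pe4 (π : Equiv.Perm X) : Equiv.Perm (X × X × X × X) :=
  Equiv.prodCongr π (Equiv.prodCongr π (Equiv.prodCongr π π))

lemma Fl.av4 {ε : ι → ℝ} {π : Equiv.Perm X} (h : Fl S ε π) (G : X × X × X × X → ℝ)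
    (u : ι → ℝ) : av4 k S (fun ω => G (pe4 π ω)) (fun e => ε e * u e) = av4 k S G u := by
  unfold H89.av4
  rw [← Equiv.sum_comp (pe4 π) fun ω => p4 k S ω u * G ω]
  refine Finset.sum_congr rfl fun ω _ => ?_
  unfold p4
  rw [h.gp, h.gp, h.gp, h.gp]
  rfl

lemma Fl.av4_odd {ε : ι → ℝ} {π : Equiv.Perm X} (h : Fl S ε π) {G : X × X × X × X → ℝ}
    (hG : ∀ ω, G (pe4 π ω) = -G ω) (u : ι → ℝ) :
    H89.av4 k S G (fun e => ε e * u e) = -H89.av4 k S G u := by
  have h1 := h.av4 (k := k) (fun ω => -G ω) u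
  have h2 : (fun ω => -G (pe4 π ω)) = G := by
    funext ω
    rw [hG, neg_neg]
  rw [h2] at h1
  rw [h1]
  have : (fun ω => -G ω) = fun ω => (-1) * G ω := by funext ω; ring
  rw [this, av4_mul]
  ring

end Vale.Agent.P146.H89
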