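import Vale.Agent.P146.H89.In1

/-!
Gaussian smoothing with vector variances: derivatives, the second order Poincaré inequality in the
couplings of a row.
-/

open MeasureTheory ProbabilityTheory

namespace Vale.Agent.P146.H89

open Vale.Agent.P157.Lv Vale.Agent.P146.H425 Vale.Agent.P146.H325

set_option linter.unusedSectionVars false

variable {ι : Type} [Fintype ι] [DecidableEq ι]

/-- the position of the row noise `y` -/
def rp (p a : ι → ℝ) (y : ι → ℝ) : ι → ℝ := fun e => p e + a e * y e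

lemma update_aff (y z : ι → ℝ) (c : ι → ℝ) (e : ι) (t : ℝ) :
    (fun i => Function.update y e t i + c i * z i) =
      Function.update (fun i => y i + c i * z i) e (t + c e * z e) := by
  funext i
  by_cases h : i = e
  · subst h
    simp
  · simp [Function.update_of_ne h]

lemma update_rp (p a y : ι → ℝ) (e : ι) (t : ℝ) :
    rp p a (Function.update y e t) = Function.update (rp p a y) e (p e + a e * t) := by
  funext i
  by_cases h : i = e
  · subst h
    simp [rp]
  · simp [rp, Function.update_of_ne h]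

/-- derivatives of smoothed functions -/
lemma pd_Tc {H H' : (ι → ℝ) → ℝ} {e : ι} (hd : PD e H H') (hg : EG H) (hg' : EG H')
    (c : ι → ℝ) : PD e (Tc c H) (Tc c H') := by
  intro y x
  obtain ⟨C, d, hC, hd', h1⟩ := hg'.bdd
  set c' : ι → ℝ := fun e => √(c e) with hc'
  have hK := bK_nonneg c'
  refine (hasDerivAt_integral_of_dominated_loc_of_deriv_le
    (F := fun t (z : ι → ℝ) => H (fun i => Function.update y e t i + √(c i) * z i))
    (F' := fun t (z : ι → ℝ) => H' (fun i => Function.update y e t i + √(c i) * z i))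
    (bound := fun (z : ι → ℝ) => C * Real.exp (d * (‖y‖ + |x| + 1)) * Real.exp (d * bK c' * ‖z‖))
    (Metric.ball_mem_nhds x one_pos) ?_ ?_ ?_ ?_ ?_ ?_).2
  · exact Filter.Eventually.of_forall fun t => (EG.aff hg _ c').meas.aestronglyMeasurable
  · exact (EG.aff hg _ c').integrable
  · exact (EG.aff hg' _ c').meas.aestronglyMeasurable
  · refine Filter.Eventually.of_forall fun z t ht => ?_
    rw [Metric.mem_ball, Real.dist_eq] at ht
    have h2 : ‖fun i => Function.update y e t i + √(c i) * z i‖ ≤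
        (‖y‖ + |x| + 1) + bK c' * ‖z‖ := by
      refine (norm_aff_le _ c' z (le_bK c')).trans ?_
      have h3 := norm_update_le y e t
      have h4 : |t| ≤ |x| + 1 := by
        have := abs_add_le (t - x) x
        rw [sub_add_cancel] at this
        linarith
      linarith
    rw [Real.norm_eq_abs]
    calc |H' (fun i => Function.update y e t i + √(c i) * z i)|
        ≤ C * Real.exp (d * ‖fun i => Function.update y e t i + √(c i) * z i‖) := h1 _
      _ ≤ C * Real.exp (d * ((‖y‖ + |x| + 1) + bK c' * ‖z‖)) := by gcongr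
      _ = C * Real.exp (d * (‖y‖ + |x| + 1)) * Real.exp (d * bK c' * ‖z‖) := by
          rw [mul_assoc, ← Real.exp_add]
          congr 2
          ring
  · exact (integrable_exp_norm _).const_mul _
  · refine Filter.Eventually.of_forall fun z t _ => ?_
    have e1 : ∀ t, (fun i => Function.update y e t i + √(c i) * z i) =
      Function.update (fun i => y i + √(c i) * z i) e (t + √(c e) * z e) :=
      fun t => update_aff y z (fun i => √(c i)) e t
    simp only [e1]
    have h3 := hd (fun i => y i + √(c i) * z i) (t + √(c e) * z e)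
    have h4 : HasDerivAt (fun t : ℝ => t + √(c e) * z e) 1 t := (hasDerivAt_id t).add_const _
    exact (h3.comp t h4).congr_deriv (mul_one _)

/-- composition with the position of the row -/
lemma pd_rp {H H' : (ι → ℝ) → ℝ} {e : ι} (hd : PD e H H') (p a : ι → ℝ) :
    PD e (fun y => H (rp p a y)) (fun y => a e * H' (rp p a y)) := by
  intro y x
  simp only [update_rp]
  have h4 : HasDerivAt (fun t : ℝ => p e + a e * t) (a e) x := by
    simpa using ((hasDerivAt_id x).const_mul (a e)).const_add (p e)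
  exact ((hd (rp p a y) (p e + a e * x)).comp x h4).congr_deriv (mul_comm _ _)

lemma eg_rp {H : (ι → ℝ) → ℝ} (hH : EG H) (p a : ι → ℝ) : EG fun y => H (rp p a y) :=
  EG.aff hH p a

/-- the Poincaré inequality in the row -/
theorem poin1 {F0 : (ι → ℝ) → ℝ} {F1 : ι → (ι → ℝ) → ℝ} (h0 : EG F0) (h1 : ∀ e, EG (F1 e))
    (hd : ∀ e, PD e F0 (F1 e)) (p a : ι → ℝ) :
    ∫ y, (F0 (rp p a y) - ∫ y', F0 (rp p a y') ∂(gI ι)) ^ 2 ∂(gI ι) ≤
      ∑ e, ∫ y, (a e * F1 e (rp p a y)) ^ 2 ∂(gI ι) :=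
  cc_var_le_one (eg_rp h0 p a) (fun e => pd_rp (hd e) p a) fun e => (eg_rp (h1 e) p a).const_mul _

/-- the second moment of a function of mean zero -/
theorem poin1' {F0 : (ι → ℝ) → ℝ} {F1 : ι → (ι → ℝ) → ℝ} (h0 : EG F0) (h1 : ∀ e, EG (F1 e))
    (hd : ∀ e, PD e F0 (F1 e)) (p a : ι → ℝ) (hm : ∫ y, F0 (rp p a y) ∂(gI ι) = 0) :
    ∫ y, F0 (rp p a y) ^ 2 ∂(gI ι) ≤ ∑ e, ∫ y, (a e * F1 e (rp p a y)) ^ 2 ∂(gI ι) := by
  have h := poin1 h0 h1 hd p a
  rw [hm] at h
  simpa using h

/-- the second order Poincaré inequality in the row -/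
theorem poin2 {F0 : (ι → ℝ) → ℝ} {F1 : ι → (ι → ℝ) → ℝ} {F2 : ι → ι → (ι → ℝ) → ℝ}
    (h0 : EG F0) (h1 : ∀ e, EG (F1 e)) (h2 : ∀ e f, EG (F2 e f))
    (hd : ∀ e, PD e F0 (F1 e)) (hd1 : ∀ e f, PD f (F1 e) (F2 e f)) (p a : ι → ℝ)
    (hm : ∀ e, a e ≠ 0 → ∫ y, F1 e (rp p a y) ∂(gI ι) = 0) :
    ∫ y, (F0 (rp p a y) - ∫ y', F0 (rp p a y') ∂(gI ι)) ^ 2 ∂(gI ι) ≤
      ∑ e, ∑ f, ∫ y, (a e * a f * F2 e f (rp p a y)) ^ 2 ∂(gI ι) := by
  refine (poin1 h0 h1 hd p a).trans (Finset.sum_le_sum fun e _ => ?_)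
  have e1 : ∀ y, (a e * F1 e (rp p a y)) ^ 2 = a e ^ 2 * F1 e (rp p a y) ^ 2 :=
    fun y => mul_pow _ _ _
  have e2 : ∀ f y, (a e * a f * F2 e f (rp p a y)) ^ 2 =
      a e ^ 2 * (a f * F2 e f (rp p a y)) ^ 2 := fun f y => by ring
  simp only [e1, e2, integral_const_mul]
  rw [← Finset.mul_sum]
  by_cases ha : a e = 0
  · rw [ha]; simp
  · exact mul_le_mul_of_nonneg_left (poin1' (h1 e) (h2 e) (hd1 e) p a (hm e ha)) (sq_nonneg _)

/-- the mean over the row of a smoothed function -/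
lemma mean_Tc {F : (ι → ℝ) → ℝ} (hF : EG F) {c : ι → ℝ} (hc : ∀ e, 0 ≤ c e) (p a : ι → ℝ) :
    ∫ y, Tc c F (rp p a y) ∂(gI ι) = Tc (fun e => c e + a e ^ 2) F p := by
  unfold Tc rp
  refine rotv hF (a := a) (b := fun e => √(c e)) (c := fun e => √(c e + a e ^ 2)) (fun e => ?_) p
  rw [Real.sq_sqrt (hc e), Real.sq_sqrt (add_nonneg (hc e) (sq_nonneg _))]
  ring

lemma eg_Tc {F : (ι → ℝ) → ℝ} (hF : EG F) (c : ι → ℝ) : EG (Tc c F) := EG.Tc hF c

/-- odd functions have mean zero -/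
lemma Tc_odd {F : (ι → ℝ) → ℝ} (hF : Measurable F) {ε : ι → ℝ} (hε : ∀ i, ε i ^ 2 = 1)
    (ho : ∀ u, F (fun e => ε e * u e) = -F u) (c : ι → ℝ) {p : ι → ℝ}
    (hp : ∀ e, ε e * p e = p e) : Tc c F p = 0 := by
  have h1 : Measurable fun z : ι → ℝ => F (fun e => p e + √(c e) * z e) :=
    hF.comp (by fun_prop)
  have h2 := int_flip hε h1
  have h3 : ∀ z : ι → ℝ, F (fun e => p e + √(c e) * (ε e * z e)) =
      -F (fun e => p e + √(c e) * z e) := by
    intro z
    rw [← ho]
    congr 1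
    funext e
    rw [mul_add, hp]
    ring
  simp only [h3] at h2
  rw [integral_neg] at h2
  show ∫ z, F (fun e => p e + √(c e) * z e) ∂(gI ι) = 0
  linarith

end Vale.Agent.P146.H89
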