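import Vale.Agent.P146.H325.Cond
import Vale.Agent.P146.H89.In2

/-!
Conditional expectations with vector variances as replica averages; the second moments of the
matrices `Hb` in terms of the kernels.
-/

open MeasureTheory ProbabilityTheory

namespace Vale.Agent.P146.H89

open Vale.Agent.P157.Lv Vale.Agent.P146.H425 Vale.Agent.P146.H325

set_option linter.unusedSectionVars false

/-! ### finite part -/

section fin

variable {Ω X : Type} [Fintype Ω] [Fintype X]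

/-- Jensen for pairs -/
lemma pair_sq_le {M : Ω → ℝ} (hM : ∀ ω, 0 ≤ M ω) (h1 : ∑ ω, M ω = 1) (f : Ω → Ω → ℝ) :
    (∑ ω, ∑ ω', M ω * M ω' * f ω ω') ^ 2 ≤ ∑ ω, ∑ ω', M ω * M ω' * f ω ω' ^ 2 := by
  set T := ∑ ω, ∑ ω', M ω * M ω' * f ω ω' with hT
  have h2 : 0 ≤ ∑ ω, ∑ ω', M ω * M ω' * (f ω ω' - T) ^ 2 :=
    Finset.sum_nonneg fun ω _ => Finset.sum_nonneg fun ω' _ =>
      mul_nonneg (mul_nonneg (hM ω) (hM ω')) (sq_nonneg _)
  have h3 : ∑ ω, ∑ ω', M ω * M ω' * (1 : ℝ) = 1 := by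
    have := sq_as M
    rw [h1] at this
    rw [← this]
    norm_num
  have h4 : ∑ ω, ∑ ω', M ω * M ω' * (f ω ω' - T) ^ 2 = ∑ ω, ∑ ω', M ω * M ω' * f ω ω' ^ 2 -
      2 * T * (∑ ω, ∑ ω', M ω * M ω' * f ω ω') + T ^ 2 * ∑ ω, ∑ ω', M ω * M ω' * (1 : ℝ) := by
    simp only [Finset.mul_sum, ← Finset.sum_sub_distrib, ← Finset.sum_add_distrib]
    exact Finset.sum_congr rfl fun ω _ => Finset.sum_congr rfl fun ω' _ => by ring
  rw [h4, h3, ← hT] at h2
  nlinarith

/-- the squared norm of a two-tensor -/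
lemma tens2_sq {A B : Type} [Fintype A] [Fintype B] {M : Ω → ℝ} (hM : ∀ ω, 0 ≤ M ω)
    (h1 : ∑ ω, M ω = 1) (α : A → Ω → ℝ) (β : B → Ω → ℝ) {θ : ℝ} (hθ : 0 < θ) :
    (∑ a, ∑ b, (∑ ω, M ω * (α a ω * β b ω)) ^ 2) ^ 2 ≤
      1 / 2 * (θ⁻¹ * (∑ ω, ∑ ω', M ω * M ω' * kn α ω ω' ^ 4) +
        θ * ∑ ω, ∑ ω', M ω * M ω' * kn β ω ω' ^ 4) := by
  rw [tens2]
  refine (pair_sq_le hM h1 _).trans ?_
  simp only [Finset.mul_sum, ← Finset.sum_add_distrib]
  refine Finset.sum_le_sum fun ω _ => Finset.sum_le_sum fun ω' _ => ?_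
  have h2 := young_two hθ (kn α ω ω' ^ 2) (kn β ω ω' ^ 2)
  have h3 : 0 ≤ M ω * M ω' := mul_nonneg (hM ω) (hM ω')
  have h4 := mul_le_mul_of_nonneg_left h2 h3
  have e : (kn α ω ω' * kn β ω ω') ^ 2 = kn α ω ω' ^ 2 * kn β ω ω' ^ 2 := mul_pow _ _ _
  rw [e]
  nlinarith [h4]

/-- the squared norm of a four-tensor -/
lemma tens4_le {A B C D : Type} [Fintype A] [Fintype B] [Fintype C] [Fintype D] {M : Ω → ℝ}
    (hM : ∀ ω, 0 ≤ M ω) (α : A → Ω → ℝ) (β : B → Ω → ℝ) (γ : C → Ω → ℝ) (δ : D → Ω → ℝ)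
    {η : ℝ} (hη : 0 < η) :
    ∑ a, ∑ b, ∑ c, ∑ d, (∑ ω, M ω * (α a ω * β b ω * γ c ω * δ d ω)) ^ 2 ≤
      1 / 4 * (η⁻¹ ^ 3 * (∑ ω, ∑ ω', M ω * M ω' * kn α ω ω' ^ 4) +
        η * ((∑ ω, ∑ ω', M ω * M ω' * kn β ω ω' ^ 4) +
          (∑ ω, ∑ ω', M ω * M ω' * kn γ ω ω' ^ 4) +
            ∑ ω, ∑ ω', M ω * M ω' * kn δ ω ω' ^ 4)) := by
  rw [tens4]
  simp only [← Finset.sum_add_distrib, Finset.mul_sum]
  refine Finset.sum_le_sum fun ω _ => Finset.sum_le_sum fun ω' _ => ?_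
  have h2 := young_four hη (kn α ω ω') (kn β ω ω') (kn γ ω ω') (kn δ ω ω')
  have h3 : 0 ≤ M ω * M ω' := mul_nonneg (hM ω) (hM ω')
  have h4 := mul_le_mul_of_nonneg_left h2 h3
  nlinarith [h4]

/-- second moments of the kernel of a combined leg -/
lemma kn_lg_two {R : Type} [Fintype R] {M : Ω → ℝ} {m : X → ℝ} {π : R → Ω → X} {B : Type}
    [Fintype B] (hM : ∀ ω, 0 ≤ M ω) (hπ : ∀ r, Psh M (π r) m)
    {c : R → ℝ} {c0 : ℝ} (hc : ∀ r, |c r| ≤ c0) (h : B → X → ℝ) :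
    ∑ ω, ∑ ω', M ω * M ω' * kn (lg π c h) ω ω' ^ 2 ≤
      ((Fintype.card R : ℝ) * c0) ^ 4 * Qm m fun σ τ => kn h σ τ ^ 2 := by
  have hc0 : ∀ p : R × R, (c p.1 * c p.2) ^ 2 ≤ c0 ^ 4 := by
    intro p
    have h1 : |c p.1 * c p.2| ≤ c0 * c0 := by
      rw [abs_mul]
      exact mul_le_mul (hc _) (hc _) (abs_nonneg _) ((abs_nonneg _).trans (hc p.1))
    calc (c p.1 * c p.2) ^ 2 = |c p.1 * c p.2| ^ 2 := (sq_abs _).symm
      _ ≤ (c0 * c0) ^ 2 := pow_le_pow_left₀ (abs_nonneg _) h1 2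
      _ = c0 ^ 4 := by ring
  have h1 : ∀ ω ω', kn (lg π c h) ω ω' ^ 2 ≤ (Fintype.card R : ℝ) ^ 2 *
      ∑ p : R × R, c0 ^ 4 * kn h (π p.1 ω) (π p.2 ω') ^ 2 := by
    intro ω ω'
    rw [kn_lg]
    have h2 := sq_sum_le_card_mul_sum_sq (s := (Finset.univ : Finset (R × R)))
      (f := fun p => c p.1 * c p.2 * kn h (π p.1 ω) (π p.2 ω'))
    refine h2.trans ?_
    rw [Finset.card_univ, Fintype.card_prod]
    push_cast
    rw [← sq]
    refine mul_le_mul_of_nonneg_left (Finset.sum_le_sum fun p _ => ?_) (by positivity)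
    rw [mul_pow]
    exact mul_le_mul_of_nonneg_right (hc0 p) (by positivity)
  calc ∑ ω, ∑ ω', M ω * M ω' * kn (lg π c h) ω ω' ^ 2
      ≤ ∑ ω, ∑ ω', M ω * M ω' * ((Fintype.card R : ℝ) ^ 2 *
        ∑ p : R × R, c0 ^ 4 * kn h (π p.1 ω) (π p.2 ω') ^ 2) :=
        Finset.sum_le_sum fun ω _ => Finset.sum_le_sum fun ω' _ =>
          mul_le_mul_of_nonneg_left (h1 ω ω') (mul_nonneg (hM ω) (hM ω'))
    _ = ∑ p : R × R, (Fintype.card R : ℝ) ^ 2 * c0 ^ 4 *
        ∑ ω, ∑ ω', M ω * M ω' * kn h (π p.1 ω) (π p.2 ω') ^ 2 := by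
        simp only [Finset.mul_sum]
        rw [Finset.sum_congr rfl fun ω _ => Finset.sum_comm, Finset.sum_comm]
        refine Finset.sum_congr rfl fun p _ => Finset.sum_congr rfl fun ω _ =>
          Finset.sum_congr rfl fun ω' _ => ?_
        ring
    _ = ∑ _p : R × R, (Fintype.card R : ℝ) ^ 2 * c0 ^ 4 * Qm m fun σ τ => kn h σ τ ^ 2 := by
        refine Finset.sum_congr rfl fun p _ => ?_
        rw [(hπ p.1).pair (hπ p.2) fun σ τ => kn h σ τ ^ 2]
    _ = _ := by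
        rw [Finset.sum_const, Finset.card_univ, Fintype.card_prod, nsmul_eq_mul]
        push_cast
        ring

end fin

variable {ι : Type} [Fintype ι] [DecidableEq ι] {X : Type} [Fintype X] [Nonempty X]
  [DecidableEq X] (k : ℝ) (S : ι → X → ℝ) (x : ℝ) (c : ι → ℝ)

/-- unnormalised conditional expectation with the vector variance `c` of the noise -/
noncomputable def NT (F : (ι → ℝ) → ℝ) (u : ι → ℝ) : ℝ := Tc c (fun v => Zx k S x v * F v) u

/-- conditional expectation -/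
noncomputable def RT (F : (ι → ℝ) → ℝ) (u : ι → ℝ) : ℝ :=
  NT k S x c F u / NT k S x c (fun _ => 1) u

/-- the mass of a configuration -/
noncomputable def m1 (u : ι → ℝ) (σ : X) : ℝ := NT k S x c (gp k S σ) u

/-- the mass of four replicas -/
noncomputable def m4 (u : ι → ℝ) (ω : X × X × X × X) : ℝ := NT k S x c (p4 k S ω) u

/-- the law of a configuration -/
noncomputable def mu (u : ι → ℝ) (σ : X) : ℝ := m1 k S x c u σ / NT k S x c (fun _ => 1) u

lemma NT_one_pos (u : ι → ℝ) : 0 < NT k S x c (fun _ => 1) u :=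
  Tc_pos (ebd (EG.const 1)) (fun v => by rw [mul_one]; exact Zx_pos k S x v) c u

lemma m1_pos (u : ι → ℝ) (σ : X) : 0 < m1 k S x c u σ :=
  Tc_pos (ebd (eg_gp k S σ)) (fun v => mul_pos (Zx_pos k S x v) (gp_pos k S σ v)) c u

lemma m4_pos (u : ι → ℝ) (ω : X × X × X × X) : 0 < m4 k S x c u ω :=
  Tc_pos (ebd (eg_p4 k S ω)) (fun v => mul_pos (Zx_pos k S x v) (p4_pos k S ω v)) c u

lemma mu_pos (u : ι → ℝ) (σ : X) : 0 < mu k S x c u σ :=
  div_pos (m1_pos k S x c u σ) (NT_one_pos k S x c u)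

lemma NT_av (h : X → ℝ) (u : ι → ℝ) :
    NT k S x c (av k S h) u = ∑ σ, m1 k S x c u σ * h σ := by
  have e : (fun v => Zx k S x v * av k S h v) =
      fun v => ∑ σ, h σ * (Zx k S x v * gp k S σ v) := by
    funext v
    rw [av_gp, Finset.mul_sum]
    exact Finset.sum_congr rfl fun σ _ => by ring
  unfold NT
  rw [e, Tc_sum _ fun σ _ => (ebd (eg_gp k S σ)).const_mul _]
  refine Finset.sum_congr rfl fun σ _ => ?_
  rw [Tc_const_mul]
  unfold m1 NT
  ring

lemma NT_av4 (G : X × X × X × X → ℝ) (u : ι → ℝ) :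
    NT k S x c (av4 k S G) u = ∑ ω, m4 k S x c u ω * G ω := by
  have e : (fun v => Zx k S x v * av4 k S G v) =
      fun v => ∑ ω, G ω * (Zx k S x v * p4 k S ω v) := by
    funext v
    unfold av4
    rw [Finset.mul_sum]
    exact Finset.sum_congr rfl fun σ _ => by ring
  unfold NT
  rw [e, Tc_sum _ fun ω _ => (ebd (eg_p4 k S ω)).const_mul _]
  refine Finset.sum_congr rfl fun ω _ => ?_
  rw [Tc_const_mul]
  unfold m4 NT
  ring

lemma psh4 (u : ι → ℝ) (r : Fin 4) : Psh (m4 k S x c u) (π4 r) (m1 k S x c u) := by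
  intro φ
  have h1 := NT_av4 k S x c (fun ω => φ (π4 r ω)) u
  have h2 : av4 k S (fun ω => φ (π4 r ω)) = av k S φ := funext fun u => mar4 k S r φ u
  rw [h2, NT_av] at h1
  exact h1.symm

lemma sum_m1 (u : ι → ℝ) : ∑ σ, m1 k S x c u σ = NT k S x c (fun _ => 1) u := by
  have h1 := NT_av k S x c (fun _ => 1) u
  have h2 : av k S (fun _ : X => (1 : ℝ)) = fun _ => 1 := funext fun u => av_one k S u
  rw [h2] at h1
  simpa using h1.symm

lemma sum_m4 (u : ι → ℝ) : ∑ ω, m4 k S x c u ω = NT k S x c (fun _ => 1) u := by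
  rw [(psh4 k S x c u 0).mass, sum_m1]

lemma sum_mu (u : ι → ℝ) : ∑ σ, mu k S x c u σ = 1 := by
  unfold mu
  rw [← Finset.sum_div, sum_m1]
  exact div_self (NT_one_pos k S x c u).ne'

lemma RT_av (h : X → ℝ) (u : ι → ℝ) :
    RT k S x c (av k S h) u = ∑ σ, mu k S x c u σ * h σ := by
  unfold RT mu
  rw [NT_av, Finset.sum_div]
  exact Finset.sum_congr rfl fun σ _ => by ring

lemma Qm_mu (u : ι → ℝ) (Φ : X → X → ℝ) : Qm (mu k S x c u) Φ =
    (NT k S x c (fun _ => 1) u ^ 2)⁻¹ * Qm (m1 k S x c u) Φ := by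
  unfold Qm mu
  rw [Finset.mul_sum]
  refine Finset.sum_congr rfl fun σ _ => ?_
  rw [Finset.mul_sum]
  refine Finset.sum_congr rfl fun τ _ => ?_
  have := (NT_one_pos k S x c u).ne'
  field_simp

/-- the bilinear form `H` -/
noncomputable def Hb (g h : X → ℝ) (u : ι → ℝ) : ℝ :=
  RT k S x c (av k S fun σ => g σ * h σ) u -
    (1 - x) * RT k S x c (fun v => av k S g v * av k S h v) u -
      x * (RT k S x c (av k S g) u * RT k S x c (av k S h) u)

/-- the four-replica function of the numerator of `H` -/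
def gg (g h : X → ℝ) (ω : X × X × X × X) : ℝ := g ω.1 * (h ω.1 - (1 - x) * h ω.2.1)

lemma d2_gg (g h : X → ℝ) : D2 (gg x g h) := fun _ _ _ _ _ _ => rfl

lemma av4_gg (g h : X → ℝ) (v : ι → ℝ) : av4 k S (gg x g h) v =
    av k S (fun σ => g σ * h σ) v - (1 - x) * (av k S g v * av k S h v) := by
  have e : gg x g h = fun ω : X × X × X × X => g (π4 0 ω) * h (π4 0 ω) +
      -(1 - x) * (g (π4 0 ω) * h (π4 1 ω)) := by
    funext ω
    show g ω.1 * (h ω.1 - (1 - x) * h ω.2.1) = g ω.1 * h ω.1 + -(1 - x) * (g ω.1 * h ω.2.1)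
    ring
  rw [e, av4_add, av4_mul]
  have h1 := mar4 k S 0 (fun σ => g σ * h σ) v
  rw [h1]
  have h2 : av4 k S (fun ω => g (π4 0 ω) * h (π4 1 ω)) v = av k S g v * av k S h v := by
    rw [av4_quad]
    show ∑ a, ∑ b, ∑ c, ∑ d, gp k S a v * (gp k S b v * (gp k S c v * (gp k S d v *
      (g a * h b)))) = _
    rw [av_gp, av_gp, Finset.sum_mul_sum]
    refine Finset.sum_congr rfl fun a _ => Finset.sum_congr rfl fun b _ => ?_
    refine sg (k := k) (S := S) (u := v) _ fun c => ?_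
    rw [← sg (k := k) (S := S) (u := v) (gp k S c v * (gp k S a v * g a * (gp k S b v * h b)))
      fun σ => rfl]
    exact Finset.sum_congr rfl fun d _ => by ring
  rw [h2]
  ring

lemma eg_avav (g h : X → ℝ) : EG fun v => Zx k S x v * (av k S g v * av k S h v) :=
  ebd ((eg_av k S g).mul (eg_av k S h))

lemma NT_gg (g h : X → ℝ) (u : ι → ℝ) : NT k S x c (av4 k S (gg x g h)) u =
    NT k S x c (av k S fun σ => g σ * h σ) u -
      (1 - x) * NT k S x c (fun v => av k S g v * av k S h v) u := by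
  unfold NT
  have e : (fun v => Zx k S x v * av4 k S (gg x g h) v) = fun v =>
      Zx k S x v * av k S (fun σ => g σ * h σ) v -
        (1 - x) * (Zx k S x v * (av k S g v * av k S h v)) := by
    funext v
    rw [av4_gg]
    ring
  rw [e, Tc_sub (ebd (eg_av k S _)) ((eg_avav k S x g h).const_mul _), Tc_const_mul]

lemma Hb_eq (g h : X → ℝ) (u : ι → ℝ) : Hb k S x c g h u =
    NT k S x c (av4 k S (gg x g h)) u / NT k S x c (fun _ => 1) u -
      x * (RT k S x c (av k S g) u * RT k S x c (av k S h) u) := by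
  unfold Hb
  rw [NT_gg]
  unfold RT
  ring

/-- `H` as an average -/
lemma Hb_sum (g h : X → ℝ) (u : ι → ℝ) : Hb k S x c g h u =
    ∑ q : (X × X × X × X) × X, (m4 k S x c u q.1 / NT k S x c (fun _ => 1) u) *
      mu k S x c u q.2 * (g q.1.1 * (h q.1.1 - (1 - x) * h q.1.2.1 - x * h q.2)) := by
  have hD := (NT_one_pos k S x c u).ne'
  rw [Fintype.sum_prod_type]
  have h1 : ∀ ω : X × X × X × X, ∑ τ, (m4 k S x c u ω / NT k S x c (fun _ => 1) u) *
      mu k S x c u τ * (g ω.1 * (h ω.1 - (1 - x) * h ω.2.1 - x * h τ)) =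
      (m4 k S x c u ω * gg x g h ω) / NT k S x c (fun _ => 1) u -
        x * ((m4 k S x c u ω * g ω.1) / NT k S x c (fun _ => 1) u * RT k S x c (av k S h) u) := by
    intro ω
    have e1 : ∀ τ, (m4 k S x c u ω / NT k S x c (fun _ => 1) u) *
      mu k S x c u τ * (g ω.1 * (h ω.1 - (1 - x) * h ω.2.1 - x * h τ)) =
        (m4 k S x c u ω * gg x g h ω) / NT k S x c (fun _ => 1) u * mu k S x c u τ -
        x * ((m4 k S x c u ω * g ω.1) / NT k S x c (fun _ => 1) u * (mu k S x c u τ * h τ)) := by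
      intro τ
      unfold gg
      ring
    simp only [e1]
    rw [Finset.sum_sub_distrib, ← Finset.mul_sum, ← Finset.mul_sum, ← Finset.mul_sum, sum_mu,
      ← RT_av]
    ring
  simp only [h1]
  rw [Hb_eq, Finset.sum_sub_distrib, ← Finset.sum_div, ← Finset.mul_sum, ← Finset.sum_mul,
    ← Finset.sum_div, NT_av4]
  have h2 := psh4 k S x c u 0 g
  have h3 : ∑ ω, m4 k S x c u ω * g ω.1 = NT k S x c (av k S g) u := by
    rw [NT_av, ← h2]
    rfl
  rw [h3]
  rfl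

/-- the three replicas of `H` -/
def π3 : Fin 3 → (X × X × X × X) × X → X :=
  ![fun q => q.1.1, fun q => q.1.2.1, fun q => q.2]

lemma Hb_frob_sq {A B : Type} [Fintype A] [Fintype B] (g : A → X → ℝ) (h : B → X → ℝ)
    (hx : 0 ≤ x) (hx1 : x ≤ 1) (u : ι → ℝ) {θ : ℝ} (hθ : 0 < θ) :
    (∑ a, ∑ b, Hb k S x c (g a) (h b) u ^ 2) ^ 2 ≤
      1 / 2 * (θ⁻¹ * Qm (mu k S x c u) (fun σ τ => kn g σ τ ^ 4) +
        θ * (3 ^ 8 * Qm (mu k S x c u) (fun σ τ => kn h σ τ ^ 4))) := by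
  set D := NT k S x c (fun _ => 1) u with hD
  have hDp : 0 < D := NT_one_pos k S x c u
  set M : (X × X × X × X) × X → ℝ := fun q => m4 k S x c u q.1 / D * mu k S x c u q.2 with hM
  have hM0 : ∀ q, 0 ≤ M q := fun q =>
    mul_nonneg (div_nonneg (m4_pos k S x c u q.1).le hDp.le) (mu_pos k S x c u q.2).le
  have s4 : ∑ ω, m4 k S x c u ω / D = 1 := by
    rw [← Finset.sum_div, sum_m4]
    exact div_self hDp.ne'
  have hp1 : ∀ r : Fin 4, Psh M (fun q => π4 r q.1) (mu k S x c u) := by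
    intro r φ
    rw [Fintype.sum_prod_type]
    have h1 : ∀ ω, ∑ τ, M (ω, τ) * φ (π4 r ω) = m4 k S x c u ω * φ (π4 r ω) / D := by
      intro ω
      have e1 : ∀ τ, M (ω, τ) * φ (π4 r ω) =
        (m4 k S x c u ω * φ (π4 r ω) / D) * mu k S x c u τ := by
        intro τ
        simp only [hM]
        ring
      simp only [e1]
      rw [← Finset.mul_sum, sum_mu, mul_one]
    simp only [h1]
    rw [← Finset.sum_div, psh4 k S x c u r φ, Finset.sum_div]
    unfold mu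
    exact Finset.sum_congr rfl fun σ _ => by ring
  have hp2 : Psh M (fun q => q.2) (mu k S x c u) := by
    intro φ
    rw [Fintype.sum_prod_type, Finset.sum_comm]
    refine Finset.sum_congr rfl fun τ _ => ?_
    have e1 : ∀ ω, M (ω, τ) * φ τ = (m4 k S x c u ω / D) * (mu k S x c u τ * φ τ) := by
      intro ω
      simp only [hM]
      ring
    simp only [e1]
    rw [← Finset.sum_mul, s4, one_mul]
  have hp : ∀ r, Psh M (π3 r) (mu k S x c u) := by
    intro r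
    fin_cases r
    · exact hp1 0
    · exact hp1 1
    · exact hp2
  have hmass : ∑ q, M q = 1 := by
    rw [hp2.mass, sum_mu]
  have hc : ∀ r, |(![1, -(1 - x), -x] : Fin 3 → ℝ) r| ≤ 1 := by
    intro r
    fin_cases r
    · simp
    · show |(-(1 - x))| ≤ 1
      rw [abs_neg, abs_of_nonneg (by linarith)]
      linarith
    · show |(-x)| ≤ 1
      rw [abs_neg, abs_of_nonneg hx]
      exact hx1
  have key := tens2_sq hM0 hmass (fun a q => g a (π3 0 q))
    (lg π3 ![1, -(1 - x), -x] h) hθ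
  have e1 : ∀ a b, ∑ q, M q * (g a (π3 0 q) * lg π3 ![1, -(1 - x), -x] h b q) =
      Hb k S x c (g a) (h b) u := by
    intro a b
    rw [Hb_sum]
    refine Finset.sum_congr rfl fun q _ => ?_
    unfold lg
    rw [Fin.sum_univ_three]
    show m4 k S x c u q.1 / D * mu k S x c u q.2 * (g a q.1.1 * (1 * h b q.1.1 +
      -(1 - x) * h b q.1.2.1 + -x * h b q.2)) = _
    ring
  simp only [e1] at key
  refine key.trans ?_
  have h1 : ∑ ω, ∑ ω', M ω * M ω' * kn (fun a q => g a (π3 0 q)) ω ω' ^ 4 =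
      Qm (mu k S x c u) (fun σ τ => kn g σ τ ^ 4) :=
    (hp 0).pair (hp 0) fun σ τ => kn g σ τ ^ 4
  have h2 := kn_lg_four (M := M) hM0 hp hc h
  rw [h1]
  have h3 : ((Fintype.card (Fin 3) : ℝ) * 1) ^ 8 = 3 ^ 8 := by simp
  rw [h3] at h2
  have h4 := mul_le_mul_of_nonneg_left h2 hθ.le
  linarith

end Vale.Agent.P146.H89
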