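import Vale.Agent.P146.H325.Cond
import Vale.Agent.P146.H89.In2

/-!
Fields of tensors represented by couplings. A field `φ` with the legs `L` belongs to `Rep L C` if
`φ e z = ∑_ω ν z ω ∏_l S (e l) (p l ω)` where the marginals of `|ν z|` are at most `C μ z`. The class
`TR r` of the fields with `r` derivatives of this form is closed under sums, products and tilted
Gaussian averages.
-/

open MeasureTheory ProbabilityTheory

namespace Vale.Agent.P146.H89

open Vale.Agent.P157.Lv Vale.Agent.P146.H425 Vale.Agent.P146.H325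

set_option linter.unusedSectionVars false

variable {ι : Type} [Fintype ι] [DecidableEq ι] {X : Type} [Fintype X]

/-- the data of a representation -/
structure RepD (S : ι → X → ℝ) (μ : (ι → ℝ) → X → ℝ) {L : Type} [Fintype L] (C : ℝ)
    (φ : (L → ι) → (ι → ℝ) → ℝ) {Ω : Type} [Fintype Ω] (ν : (ι → ℝ) → Ω → ℝ)
    (p : L → Ω → X) : Prop where
  rep : ∀ e z, φ e z = ∑ ω, ν z ω * ∏ l, S (e l) (p l ω)
  mar : ∀ z l (f : X → ℝ), (∀ σ, 0 ≤ f σ) → ∑ ω, |ν z ω| * f (p l ω) ≤ C * ∑ σ, μ z σ * f σ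
  tot : ∀ z, ∑ ω, |ν z ω| ≤ C
  eg : ∀ ω, EG fun z => ν z ω

/-- represented fields -/
def Rep (S : ι → X → ℝ) (μ : (ι → ℝ) → X → ℝ) {L : Type} [Fintype L] (C : ℝ)
    (φ : (L → ι) → (ι → ℝ) → ℝ) : Prop :=
  ∃ (Ω : Type) (_ : Fintype Ω) (ν : (ι → ℝ) → Ω → ℝ) (p : L → Ω → X), RepD S μ C φ ν p

variable {S : ι → X → ℝ} {μ : (ι → ℝ) → X → ℝ} {L L' : Type} [Fintype L] [Fintype L']

lemma Rep.eg {C : ℝ} {φ : (L → ι) → (ι → ℝ) → ℝ} (h : Rep S μ C φ) (e : L → ι) : EG (φ e) := by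
  obtain ⟨Ω, _, ν, p, hr⟩ := h
  have : φ e = fun z => ∑ ω, ν z ω * ∏ l, S (e l) (p l ω) := funext fun z => hr.rep e z
  rw [this]
  exact EG.sum _ fun ω _ => (hr.eg ω).mul (EG.const _)

lemma Rep.nonneg {C : ℝ} {φ : (L → ι) → (ι → ℝ) → ℝ} (h : Rep S μ C φ) : 0 ≤ C := by
  obtain ⟨Ω, _, ν, p, hr⟩ := h
  exact (Finset.sum_nonneg fun ω _ => abs_nonneg (ν 0 ω)).trans (hr.tot 0)

lemma Rep.mono {C C' : ℝ} {φ : (L → ι) → (ι → ℝ) → ℝ} (h : Rep S μ C φ) (hC : C ≤ C')
    (hμ : ∀ z σ, 0 ≤ μ z σ) : Rep S μ C' φ := by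
  obtain ⟨Ω, _, ν, p, hr⟩ := h
  refine ⟨Ω, _, ν, p, hr.rep, fun z l f hf => (hr.mar z l f hf).trans ?_,
    fun z => (hr.tot z).trans hC, hr.eg⟩
  exact mul_le_mul_of_nonneg_right hC (Finset.sum_nonneg fun σ _ => mul_nonneg (hμ z σ) (hf σ))

lemma Rep.congr {C : ℝ} {φ ψ : (L → ι) → (ι → ℝ) → ℝ} (h : Rep S μ C φ)
    (he : ∀ e z, ψ e z = φ e z) : Rep S μ C ψ := by
  have : ψ = φ := funext fun e => funext fun z => he e z
  rwa [this]

lemma Rep.add {C D : ℝ} {φ ψ : (L → ι) → (ι → ℝ) → ℝ} (h : Rep S μ C φ) (h' : Rep S μ D ψ) :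
    Rep S μ (C + D) (fun e z => φ e z + ψ e z) := by
  obtain ⟨Ω, _, ν, p, hr⟩ := h
  obtain ⟨Ω', _, ν', p', hr'⟩ := h'
  refine ⟨Ω ⊕ Ω', inferInstance, fun z => Sum.elim (ν z) (ν' z), fun l => Sum.elim (p l) (p' l),
    fun e z => ?_, fun z l f hf => ?_, fun z => ?_, fun ω => ?_⟩
  · rw [Fintype.sum_sum_type, hr.rep, hr'.rep]
    rfl
  · rw [Fintype.sum_sum_type, add_mul]
    exact add_le_add (hr.mar z l f hf) (hr'.mar z l f hf)
  · rw [Fintype.sum_sum_type]
    exact add_le_add (hr.tot z) (hr'.tot z)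
  · rcases ω with ω | ω
    · exact hr.eg ω
    · exact hr'.eg ω

lemma Rep.smul {C : ℝ} {φ : (L → ι) → (ι → ℝ) → ℝ} (h : Rep S μ C φ) (c : ℝ) :
    Rep S μ (|c| * C) (fun e z => c * φ e z) := by
  obtain ⟨Ω, _, ν, p, hr⟩ := h
  refine ⟨Ω, _, fun z ω => c * ν z ω, p, fun e z => ?_, fun z l f hf => ?_, fun z => ?_,
    fun ω => (hr.eg ω).const_mul c⟩
  · rw [hr.rep, Finset.mul_sum]
    exact Finset.sum_congr rfl fun ω _ => by ring
  · have h1 : ∑ ω, |c * ν z ω| * f (p l ω) = |c| * ∑ ω, |ν z ω| * f (p l ω) := by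
      rw [Finset.mul_sum]
      exact Finset.sum_congr rfl fun ω _ => by rw [abs_mul]; ring
    rw [h1, mul_assoc]
    exact mul_le_mul_of_nonneg_left (hr.mar z l f hf) (abs_nonneg c)
  · simp only [abs_mul]
    rw [← Finset.mul_sum]
    exact mul_le_mul_of_nonneg_left (hr.tot z) (abs_nonneg c)

lemma Rep.reidx {C : ℝ} {φ : (L → ι) → (ι → ℝ) → ℝ} (h : Rep S μ C φ) (g : L ≃ L') :
    Rep S μ C (fun e z => φ (fun l => e (g l)) z) := by
  obtain ⟨Ω, _, ν, p, hr⟩ := h
  refine ⟨Ω, _, ν, fun l' => p (g.symm l'), fun e z => ?_, fun z l f hf => hr.mar z _ f hf,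
    hr.tot, hr.eg⟩
  rw [hr.rep]
  refine Finset.sum_congr rfl fun ω _ => ?_
  congr 1
  rw [← Equiv.prod_comp g fun l' => S (e l') (p (g.symm l') ω)]
  exact Finset.prod_congr rfl fun l _ => by rw [Equiv.symm_apply_apply]

/-- the product of two fields -/
def fm (φ : (L → ι) → (ι → ℝ) → ℝ) (ψ : (L' → ι) → (ι → ℝ) → ℝ) :
    (L ⊕ L' → ι) → (ι → ℝ) → ℝ :=
  fun e z => φ (fun l => e (Sum.inl l)) z * ψ (fun l => e (Sum.inr l)) z

lemma Rep.mul {C D : ℝ} {φ : (L → ι) → (ι → ℝ) → ℝ} {ψ : (L' → ι) → (ι → ℝ) → ℝ}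
    (h : Rep S μ C φ) (h' : Rep S μ D ψ) (hμ : ∀ z σ, 0 ≤ μ z σ) :
    Rep S μ (C * D) (fm φ ψ) := by
  have hC := h.nonneg
  have hD := h'.nonneg
  obtain ⟨Ω, _, ν, p, hr⟩ := h
  obtain ⟨Ω', _, ν', p', hr'⟩ := h'
  refine ⟨Ω × Ω', inferInstance, fun z ω => ν z ω.1 * ν' z ω.2,
    fun l ω => Sum.elim (fun l => p l ω.1) (fun l => p' l ω.2) l,
    fun e z => ?_, fun z l f hf => ?_, fun z => ?_, fun ω => (hr.eg ω.1).mul (hr'.eg ω.2)⟩
  · unfold fm
    rw [hr.rep, hr'.rep, Finset.sum_mul_sum, Fintype.sum_prod_type]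
    refine Finset.sum_congr rfl fun ω _ => Finset.sum_congr rfl fun ω' _ => ?_
    rw [Fintype.prod_sum_type]
    simp only [Sum.elim_inl, Sum.elim_inr]
    ring
  · rw [Fintype.sum_prod_type]
    rcases l with l | l
    · simp only [Sum.elim_inl, abs_mul]
      have e1 : ∑ ω, ∑ ω', |ν z ω| * |ν' z ω'| * f (p l ω) =
          (∑ ω, |ν z ω| * f (p l ω)) * ∑ ω', |ν' z ω'| := by
        rw [Finset.sum_mul_sum]
        exact Finset.sum_congr rfl fun ω _ => Finset.sum_congr rfl fun ω' _ => by ring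
      rw [e1]
      calc (∑ ω, |ν z ω| * f (p l ω)) * ∑ ω', |ν' z ω'| ≤ (C * ∑ σ, μ z σ * f σ) * D :=
            mul_le_mul (hr.mar z l f hf) (hr'.tot z)
              (Finset.sum_nonneg fun _ _ => abs_nonneg _)
              (mul_nonneg hC (Finset.sum_nonneg fun σ _ => mul_nonneg (hμ z σ) (hf σ)))
        _ = C * D * ∑ σ, μ z σ * f σ := by ring
    · simp only [Sum.elim_inr, abs_mul]
      have e1 : ∑ ω, ∑ ω', |ν z ω| * |ν' z ω'| * f (p' l ω') =
          (∑ ω, |ν z ω|) * ∑ ω', |ν' z ω'| * f (p' l ω') := by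
        rw [Finset.sum_mul_sum]
        exact Finset.sum_congr rfl fun ω _ => Finset.sum_congr rfl fun ω' _ => by ring
      rw [e1]
      calc (∑ ω, |ν z ω|) * ∑ ω', |ν' z ω'| * f (p' l ω') ≤ C * (D * ∑ σ, μ z σ * f σ) :=
            mul_le_mul (hr.tot z) (hr'.mar z l f hf)
              (Finset.sum_nonneg fun _ _ => mul_nonneg (abs_nonneg _) (hf _)) hC
        _ = C * D * ∑ σ, μ z σ * f σ := by ring
  · rw [Fintype.sum_prod_type]
    simp only [abs_mul]
    rw [← Finset.sum_mul_sum]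
    exact mul_le_mul (hr.tot z) (hr'.tot z) (Finset.sum_nonneg fun _ _ => abs_nonneg _) hC

/-! ### tilted averages -/

/-- the tilted Gaussian average -/
noncomputable def TA (E : (ι → ℝ) → ℝ) (c : ι → ℝ) (φ : (ι → ℝ) → ℝ) (z : ι → ℝ) : ℝ :=
  Tc c (fun v => E v * φ v) z / Tc c E z

/-- admissible densities -/
structure Dn (E : (ι → ℝ) → ℝ) : Prop where
  eg : EG E
  pos : ∀ v, 0 < E v
  lo : ∀ c : ι → ℝ, EG fun z => (Tc c E z)⁻¹

section ta

variable {E : (ι → ℝ) → ℝ} {c : ι → ℝ}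

lemma Dn.Tpos (hE : Dn E) (z : ι → ℝ) : 0 < Tc c E z := Tc_pos hE.eg hE.pos c z

lemma TA_add (hE : Dn E) {φ ψ : (ι → ℝ) → ℝ} (hφ : EG φ) (hψ : EG ψ) (z : ι → ℝ) :
    TA E c (fun v => φ v + ψ v) z = TA E c φ z + TA E c ψ z := by
  unfold TA
  have e : (fun v => E v * (φ v + ψ v)) = fun v => E v * φ v + E v * ψ v := by
    funext v; ring
  rw [e, Tc_add (hE.eg.mul hφ) (hE.eg.mul hψ), add_div]

lemma TA_const_mul (a : ℝ) (φ : (ι → ℝ) → ℝ) (z : ι → ℝ) :
    TA E c (fun v => a * φ v) z = a * TA E c φ z := by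
  unfold TA
  have e : (fun v => E v * (a * φ v)) = fun v => a * (E v * φ v) := by
    funext v; ring
  rw [e, Tc_const_mul, mul_div_assoc]

lemma TA_const (hE : Dn E) (a : ℝ) (z : ι → ℝ) : TA E c (fun _ => a) z = a := by
  unfold TA
  have e : (fun v => E v * a) = fun v => a * E v := by funext v; ring
  rw [e, Tc_const_mul, mul_div_assoc, div_self (hE.Tpos z).ne', mul_one]

lemma TA_sum (hE : Dn E) {κ : Type*} (s : Finset κ) {φ : κ → (ι → ℝ) → ℝ}
    (hφ : ∀ i ∈ s, EG (φ i)) (z : ι → ℝ) :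
    TA E c (fun v => ∑ i ∈ s, φ i v) z = ∑ i ∈ s, TA E c (φ i) z := by
  unfold TA
  have e : (fun v => E v * ∑ i ∈ s, φ i v) = fun v => ∑ i ∈ s, E v * φ i v := by
    funext v; rw [Finset.mul_sum]
  rw [e, Tc_sum _ fun i hi => hE.eg.mul (hφ i hi), Finset.sum_div]

lemma TA_mono (hE : Dn E) {φ ψ : (ι → ℝ) → ℝ} (hφ : EG φ) (hψ : EG ψ) (h : ∀ v, φ v ≤ ψ v)
    (z : ι → ℝ) : TA E c φ z ≤ TA E c ψ z := by
  unfold TA
  refine div_le_div_of_nonneg_right ?_ (hE.Tpos z).le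
  exact Tc_mono (hE.eg.mul hφ) (hE.eg.mul hψ)
    (fun v => mul_le_mul_of_nonneg_left (h v) (hE.pos v).le) c z

lemma TA_nonneg (hE : Dn E) {φ : (ι → ℝ) → ℝ} (h : ∀ v, 0 ≤ φ v) (z : ι → ℝ) :
    0 ≤ TA E c φ z :=
  div_nonneg (Tc_nonneg (fun v => mul_nonneg (hE.pos v).le (h v)) c z) (hE.Tpos z).le

lemma abs_TA_le (hE : Dn E) {φ : (ι → ℝ) → ℝ} (hφ : EG φ) (z : ι → ℝ) :
    |TA E c φ z| ≤ TA E c (fun v => |φ v|) z := by
  rw [abs_le]
  constructor
  · have h1 := TA_mono (c := c) hE (φ := fun v => -1 * |φ v|) (hφ.abs.const_mul (-1)) hφ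
      (fun v => by rw [neg_one_mul]; exact neg_abs_le (φ v)) z
    rw [TA_const_mul] at h1
    linarith
  · exact TA_mono hE hφ hφ.abs (fun v => le_abs_self _) z

lemma eg_TA (hE : Dn E) {φ : (ι → ℝ) → ℝ} (hφ : EG φ) : EG (TA E c φ) := by
  have h := (eg_Tc (hE.eg.mul hφ) c).mul (hE.lo c)
  have e : TA E c φ = fun z => Tc c (fun v => E v * φ v) z * (Tc c E z)⁻¹ := by
    funext z
    unfold TA
    rw [div_eq_mul_inv]
  rw [e]
  exact h

/-- derivatives of tilted averages -/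
lemma pd_TA (hE : Dn E) {T : (ι → ℝ) → ℝ} {f : ι} (hT : EG T)
    (hdE : PD f E (fun v => E v * T v)) {φ φ' : (ι → ℝ) → ℝ} (hφ : EG φ) (hφ' : EG φ')
    (hd : PD f φ φ') : PD f (TA E c φ)
      (fun z => TA E c φ' z + (TA E c (fun v => φ v * T v) z - TA E c φ z * TA E c T z)) := by
  have h1 : PD f (fun v => E v * φ v) (fun v => E v * φ' v + E v * (φ v * T v)) :=
    (hdE.mul hd).congr fun v => by ring
  have h2 := pd_Tc h1 (hE.eg.mul hφ) ((hE.eg.mul hφ').add (hE.eg.mul (hφ.mul hT))) c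
  have h3 := pd_Tc hdE hE.eg (hE.eg.mul hT) c
  refine (h2.div h3 fun z => (hE.Tpos z).ne').congr fun z => ?_
  have e1 : Tc c (fun v => E v * φ' v + E v * (φ v * T v)) z =
      Tc c (fun v => E v * φ' v) z + Tc c (fun v => E v * (φ v * T v)) z :=
    Tc_add (hE.eg.mul hφ') (hE.eg.mul (hφ.mul hT)) c z
  rw [e1]
  unfold TA
  have := (hE.Tpos (c := c) z).ne'
  field_simp
  ring

lemma Rep.ta {C : ℝ} {φ : (L → ι) → (ι → ℝ) → ℝ} (h : Rep S μ C φ) (hE : Dn E)
    (hμ : ∀ σ, EG fun z => μ z σ) :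
    Rep S (fun z σ => TA E c (fun v => μ v σ) z) C (fun e => TA E c (φ e)) := by
  obtain ⟨Ω, _, ν, p, hr⟩ := h
  refine ⟨Ω, _, fun z ω => TA E c (fun v => ν v ω) z, p, fun e z => ?_, fun z l f hf => ?_,
    fun z => ?_, fun ω => eg_TA hE (hr.eg ω)⟩
  · have e1 : φ e = fun v => ∑ ω, (∏ l, S (e l) (p l ω)) * ν v ω := by
      funext v
      rw [hr.rep]
      exact Finset.sum_congr rfl fun ω _ => mul_comm _ _
    rw [e1, TA_sum hE _ fun ω _ => (hr.eg ω).const_mul _]
    refine Finset.sum_congr rfl fun ω _ => ?_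
    rw [TA_const_mul, mul_comm]
  · calc ∑ ω, |TA E c (fun v => ν v ω) z| * f (p l ω)
        ≤ ∑ ω, TA E c (fun v => |ν v ω|) z * f (p l ω) :=
          Finset.sum_le_sum fun ω _ =>
            mul_le_mul_of_nonneg_right (abs_TA_le hE (hr.eg ω) z) (hf _)
      _ = TA E c (fun v => ∑ ω, f (p l ω) * |ν v ω|) z := by
          rw [TA_sum hE _ fun ω _ => (hr.eg ω).abs.const_mul _]
          exact Finset.sum_congr rfl fun ω _ => by rw [TA_const_mul, mul_comm]
      _ ≤ TA E c (fun v => C * ∑ σ, f σ * μ v σ) z := by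
          refine TA_mono hE (EG.sum _ fun ω _ => (hr.eg ω).abs.const_mul _)
            ((EG.sum _ fun σ _ => (hμ σ).const_mul _).const_mul _) (fun v => ?_) z
          have h1 := hr.mar v l f hf
          have e1 : ∑ ω, f (p l ω) * |ν v ω| = ∑ ω, |ν v ω| * f (p l ω) :=
            Finset.sum_congr rfl fun ω _ => mul_comm _ _
          have e2 : ∑ σ, f σ * μ v σ = ∑ σ, μ v σ * f σ :=
            Finset.sum_congr rfl fun ω _ => mul_comm _ _
          rw [e1, e2]
          exact h1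
      _ = C * ∑ σ, TA E c (fun v => μ v σ) z * f σ := by
          rw [TA_const_mul, TA_sum hE _ fun σ _ => (hμ σ).const_mul _]
          congr 1
          exact Finset.sum_congr rfl fun ω _ => by rw [TA_const_mul, mul_comm]
  · calc ∑ ω, |TA E c (fun v => ν v ω) z| ≤ ∑ ω, TA E c (fun v => |ν v ω|) z :=
          Finset.sum_le_sum fun ω _ => abs_TA_le hE (hr.eg ω) z
      _ = TA E c (fun v => ∑ ω, |ν v ω|) z := (TA_sum hE _ (fun ω _ => (hr.eg ω).abs) z).symm
      _ ≤ TA E c (fun _ => C) z := TA_mono hE (EG.sum _ fun ω _ => (hr.eg ω).abs) (EG.const _)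
          (fun v => hr.tot v) z
      _ = C := TA_const hE C z

end ta

/-! ### fields with derivatives -/

/-- add a leg -/
def oc (f : ι) (e : L → ι) : Option L → ι := fun o => o.elim f e

/-- fields with `r` derivatives in the class of the represented fields -/
def TR (S : ι → X → ℝ) (k : ℝ) (μ : (ι → ℝ) → X → ℝ) :
    ℕ → (L : Type) → [Fintype L] → ℝ → ((L → ι) → (ι → ℝ) → ℝ) → Prop
  | 0, _, _, C, φ => Rep S μ C φ
  | r + 1, L, _, C, φ => Rep S μ C φ ∧ ∃ φ' : (Option L → ι) → (ι → ℝ) → ℝ,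
      (∀ e f, PD f (φ e) (fun z => k * φ' (oc f e) z)) ∧ TR S k μ r (Option L) C φ'

variable {k : ℝ}

lemma TR.rep {r : ℕ} {C : ℝ} {φ : (L → ι) → (ι → ℝ) → ℝ} (h : TR S k μ r L C φ) :
    Rep S μ C φ := by
  cases r with
  | zero => exact h
  | succ r => exact h.1

lemma TR.mono {r : ℕ} : ∀ {L : Type} [Fintype L] {C C' : ℝ} {φ : (L → ι) → (ι → ℝ) → ℝ},
    TR S k μ r L C φ → C ≤ C' → (∀ z σ, 0 ≤ μ z σ) → TR S k μ r L C' φ := by
  induction r with
  | zero =>
    intro L _ C C' φ h hC hμ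
    exact Rep.mono h hC hμ
  | succ r ih =>
    intro L _ C C' φ h hC hμ
    obtain ⟨h0, φ', hd, h1⟩ := h
    exact ⟨h0.mono hC hμ, φ', hd, ih h1 hC hμ⟩

lemma TR.down {r : ℕ} : ∀ {L : Type} [Fintype L] {C : ℝ} {φ : (L → ι) → (ι → ℝ) → ℝ},
    TR S k μ (r + 1) L C φ → TR S k μ r L C φ := by
  induction r with
  | zero =>
    intro L _ C φ h
    exact h.1
  | succ r ih =>
    intro L _ C φ h
    obtain ⟨h0, φ', hd, h1⟩ := h
    exact ⟨h0, φ', hd, ih h1⟩

lemma TR.congr {r : ℕ} {C : ℝ} {φ ψ : (L → ι) → (ι → ℝ) → ℝ} (h : TR S k μ r L C φ)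
    (he : ∀ e z, ψ e z = φ e z) : TR S k μ r L C ψ := by
  have : ψ = φ := funext fun e => funext fun z => he e z
  rwa [this]

lemma TR.add {r : ℕ} : ∀ {L : Type} [Fintype L] {C D : ℝ} {φ ψ : (L → ι) → (ι → ℝ) → ℝ},
    TR S k μ r L C φ → TR S k μ r L D ψ → TR S k μ r L (C + D) (fun e z => φ e z + ψ e z) := by
  induction r with
  | zero =>
    intro L _ C D φ ψ h h'
    exact Rep.add h h'
  | succ r ih =>
    intro L _ C D φ ψ h h'
    obtain ⟨h0, φ', hd, h1⟩ := h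
    obtain ⟨h0', ψ', hd', h1'⟩ := h'
    exact ⟨h0.add h0', _, fun e f => ((hd e f).add (hd' e f)).congr fun z => by ring, ih h1 h1'⟩

lemma TR.smul {r : ℕ} : ∀ {L : Type} [Fintype L] {C : ℝ} {φ : (L → ι) → (ι → ℝ) → ℝ},
    TR S k μ r L C φ → ∀ c : ℝ, TR S k μ r L (|c| * C) (fun e z => c * φ e z) := by
  induction r with
  | zero =>
    intro L _ C φ h c
    exact Rep.smul h c
  | succ r ih =>
    intro L _ C φ h c
    obtain ⟨h0, φ', hd, h1⟩ := h
    exact ⟨h0.smul c, _, fun e f => ((hd e f).const_mul c).congr fun z => by ring, ih h1 c⟩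

lemma TR.reidx {r : ℕ} : ∀ {L L' : Type} [Fintype L] [Fintype L'] {C : ℝ}
    {φ : (L → ι) → (ι → ℝ) → ℝ}, TR S k μ r L C φ → ∀ g : L ≃ L',
      TR S k μ r L' C (fun e z => φ (fun l => e (g l)) z) := by
  induction r with
  | zero =>
    intro L L' _ _ C φ h g
    exact Rep.reidx h g
  | succ r ih =>
    intro L L' _ _ C φ h g
    obtain ⟨h0, φ', hd, h1⟩ := h
    refine ⟨h0.reidx g, _, fun e f => ?_, ih h1 (Equiv.optionCongr g)⟩
    refine (hd (fun l => e (g l)) f).congr fun z => ?_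
    congr 2
    funext o
    cases o <;> rfl

/-- moving the new leg -/
def mv1 (L L' : Type) : Option L ⊕ L' ≃ Option (L ⊕ L') where
  toFun := Sum.elim (fun o => o.elim none fun a => some (Sum.inl a)) fun b => some (Sum.inr b)
  invFun := fun o => o.elim (Sum.inl none) fun s => Sum.elim (fun a => Sum.inl (some a)) Sum.inr s
  left_inv := by
    rintro ((_ | a) | b) <;> rfl
  right_inv := by
    rintro (_ | (a | b)) <;> rfl

/-- moving the new leg -/
def mv2 (L L' : Type) : L ⊕ Option L' ≃ Option (L ⊕ L') where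
  toFun := Sum.elim (fun a => some (Sum.inl a)) fun o => o.elim none fun b => some (Sum.inr b)
  invFun := fun o => o.elim (Sum.inr none) fun s => Sum.elim Sum.inl (fun b => Sum.inr (some b)) s
  left_inv := by
    rintro (a | (_ | b)) <;> rfl
  right_inv := by
    rintro (_ | (a | b)) <;> rfl

lemma TR.mul {r : ℕ} : ∀ {L L' : Type} [Fintype L] [Fintype L'] {C D : ℝ}
    {φ : (L → ι) → (ι → ℝ) → ℝ} {ψ : (L' → ι) → (ι → ℝ) → ℝ},
    TR S k μ r L C φ → TR S k μ r L' D ψ → (∀ z σ, 0 ≤ μ z σ) →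
      TR S k μ r (L ⊕ L') (2 ^ r * (C * D)) (fm φ ψ) := by
  induction r with
  | zero =>
    intro L L' _ _ C D φ ψ h h' hμ
    rw [pow_zero, one_mul]
    exact Rep.mul h h' hμ
  | succ r ih =>
    intro L L' _ _ C D φ ψ h h' hμ
    have hC := h.rep.nonneg
    have hD := h'.rep.nonneg
    have hh := h
    have hh' := h'
    obtain ⟨h0, φ', hd, h1⟩ := h
    obtain ⟨h0', ψ', hd', h1'⟩ := h'
    have k1 := (ih h1 hh'.down hμ).reidx (mv1 L L')
    have k2 := (ih hh.down h1' hμ).reidx (mv2 L L')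
    refine ⟨(h0.mul h0' hμ).mono ?_ hμ, _, fun e f => ?_,
      ((k1.add k2).mono (le_of_eq (by ring)) hμ)⟩
    · have : (1 : ℝ) ≤ 2 ^ (r + 1) := one_le_pow₀ (by norm_num)
      nlinarith [mul_nonneg hC hD]
    · refine ((hd (fun l => e (Sum.inl l)) f).mul (hd' (fun l => e (Sum.inr l)) f)).congr
        fun z => ?_
      unfold fm
      have e1 : (fun l => oc f e ((mv1 L L') (Sum.inl l))) = oc f fun l => e (Sum.inl l) := by
        funext o
        cases o <;> rfl
      have e2 : (fun l => oc f e ((mv1 L L') (Sum.inr l))) = fun l => e (Sum.inr l) := rfl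
      have e3 : (fun l => oc f e ((mv2 L L') (Sum.inl l))) = fun l => e (Sum.inl l) := rfl
      have e4 : (fun l => oc f e ((mv2 L L') (Sum.inr l))) = oc f fun l => e (Sum.inr l) := by
        funext o
        cases o <;> rfl
      rw [e1, e2, e3, e4]
      ring

/-- the constants of the tilted averages -/
noncomputable def alc (T : ℝ) : ℕ → ℝ
  | 0 => 1
  | r + 1 => alc T r + alc T r * (2 ^ r * T) + 2 ^ r * alc T r * (alc T r * T)

lemma one_le_alc {T : ℝ} (hT : 0 ≤ T) (r : ℕ) : 1 ≤ alc T r := by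
  induction r with
  | zero => exact le_rfl
  | succ r ih =>
    have h0 : 0 ≤ alc T r := zero_le_one.trans ih
    have h1 : 0 ≤ alc T r * (2 ^ r * T) := by positivity
    have h2 : 0 ≤ 2 ^ r * alc T r * (alc T r * T) := by positivity
    unfold alc
    linarith

/-- the new leg of a product with a one-leg field -/
def mv3 (L : Type) : L ⊕ Unit ≃ Option L where
  toFun := Sum.elim some fun _ => none
  invFun := fun o => o.elim (Sum.inr ()) Sum.inl
  left_inv := by
    rintro (a | b) <;> rfl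
  right_inv := by
    rintro (_ | a) <;> rfl

lemma TR.ta {E : (ι → ℝ) → ℝ} {c : ι → ℝ} (hE : Dn E) {m T : ℝ} (hm : 0 ≤ m) (hm1 : m ≤ 1)
    {T1 : (Unit → ι) → (ι → ℝ) → ℝ}
    (hdE : ∀ f, PD f E (fun v => E v * (m * (k * T1 (fun _ => f) v))))
    (hμ : ∀ σ, EG fun z => μ z σ) (hμ0 : ∀ z σ, 0 ≤ μ z σ) {r : ℕ} :
    ∀ {L : Type} [Fintype L] {C : ℝ} {φ : (L → ι) → (ι → ℝ) → ℝ}, TR S k μ r L C φ →
      TR S k μ r Unit T T1 →
      TR S k (fun z σ => TA E c (fun v => μ v σ) z) r L (alc T r * C) (fun e => TA E c (φ e)) := by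
  have hμ0' : ∀ z σ, 0 ≤ (fun z σ => TA E c (fun v => μ v σ) z) z σ :=
    fun z σ => TA_nonneg hE (fun v => hμ0 v σ) z
  induction r with
  | zero =>
    intro L _ C φ h hT
    have := Rep.ta (c := c) h hE hμ
    unfold alc
    rw [one_mul]
    exact this
  | succ r ih =>
    intro L _ C φ h hT
    have hC := h.rep.nonneg
    have hT0 := hT.rep.nonneg
    have hh := h
    obtain ⟨h0, φ', hd, h1⟩ := h
    have g1 := ih h1 hT.down
    have g2 := (ih (TR.mul hh.down hT.down hμ0) hT.down).reidx (mv3 L)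
    have g3 := (TR.mul (ih hh.down hT.down) (ih hT.down hT.down) hμ0').reidx (mv3 L)
    have ha := one_le_alc hT0 r
    have ha0 : 0 ≤ alc T r := zero_le_one.trans ha
    refine ⟨(Rep.ta (c := c) h0 hE hμ).mono ?_ hμ0', _, fun e f => ?_,
      (g1.add ((g2.add (g3.smul (-1))).smul m)).mono ?_ hμ0'⟩
    · have := one_le_alc hT0 (r + 1)
      nlinarith
    · have hT1 := (hT.rep.eg (fun _ => f))
      have key := pd_TA (c := c) hE (T := fun v => m * (k * T1 (fun _ => f) v))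
        ((hT1.const_mul k).const_mul m) (hdE f) (h0.eg e) ((h1.rep.eg (oc f e)).const_mul k)
        (hd e f)
      refine key.congr fun z => ?_
      have e1 : (fun v => fm φ T1 (fun l => oc f e ((mv3 L) l)) v) =
          fun v => φ e v * T1 (fun _ => f) v := rfl
      have e2 : fm (fun e => TA E c (φ e)) (fun e => TA E c (T1 e))
          (fun l => oc f e ((mv3 L) l)) z = TA E c (φ e) z * TA E c (T1 fun _ => f) z := rfl
      have e3 : (fun v => φ e v * (m * (k * T1 (fun _ => f) v))) =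
          fun v => m * (k * (φ e v * T1 (fun _ => f) v)) := by
        funext v; ring
      have e4 : (fun e' : Option L → ι => TA E c (fm φ T1 fun l => e' ((mv3 L) l))) (oc f e) z =
          TA E c (fun v => φ e v * T1 (fun _ => f) v) z := rfl
      rw [e3, TA_const_mul, TA_const_mul, TA_const_mul, TA_const_mul, TA_const_mul, e2]
      simp only [e1]
      ring
    · have h5 : 0 ≤ alc T r * (2 ^ r * (C * T)) + |(-1 : ℝ)| * (2 ^ r * (alc T r * C *
          (alc T r * T))) := by positivity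
      have h6 : |m| * (alc T r * (2 ^ r * (C * T)) + |(-1 : ℝ)| * (2 ^ r * (alc T r * C *
          (alc T r * T)))) ≤ 1 * (alc T r * (2 ^ r * (C * T)) + |(-1 : ℝ)| * (2 ^ r * (alc T r * C *
          (alc T r * T)))) := by
        refine mul_le_mul_of_nonneg_right ?_ h5
        rw [abs_of_nonneg hm]
        exact hm1
      have h7 : |(-1 : ℝ)| = 1 := by norm_num
      rw [h7] at h6
      rw [h7]
      have h8 : alc T (r + 1) * C = alc T r * C + 1 * (alc T r * (2 ^ r * (C * T)) +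
          1 * (2 ^ r * (alc T r * C * (alc T r * T)))) := by
        show (alc T r + alc T r * (2 ^ r * T) + 2 ^ r * alc T r * (alc T r * T)) * C = _
        ring
      rw [h8]
      linarith

/-! ### the base: Gibbs averages -/

section base

variable [Nonempty X] [DecidableEq X]

/-- the Gibbs averages of products -/
noncomputable def dg (S : ι → X → ℝ) (k : ℝ) (L : Type) [Fintype L] :
    (L → ι) → (ι → ℝ) → ℝ := fun e => av k S fun σ => ∏ l, S (e l) σ

/-- the Gibbs weights as a field of laws -/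
noncomputable def gb (S : ι → X → ℝ) (k : ℝ) (z : ι → ℝ) (σ : X) : ℝ := gp k S σ z

lemma rep_dg : Rep S (gb S k) 1 (dg S k L) := by
  refine ⟨X, inferInstance, fun z σ => gp k S σ z, fun _ σ => σ, fun e z => ?_,
    fun z l f hf => ?_, fun z => ?_, fun σ => eg_gp k S σ⟩
  · unfold dg
    rw [av_gp]
  · rw [one_mul]
    exact le_of_eq (Finset.sum_congr rfl fun σ _ => by
      rw [abs_of_pos (gp_pos k S σ z)]; rfl)
  · simp only [abs_of_pos (gp_pos k S _ z)]
    exact (gp_sum k S z).le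

/-- the constants of the Gibbs averages -/
noncomputable def bsc : ℕ → ℝ
  | 0 => 1
  | r + 1 => bsc r + 2 ^ r * (bsc r * bsc r)

lemma one_le_bsc (r : ℕ) : 1 ≤ bsc r := by
  induction r with
  | zero => exact le_rfl
  | succ r ih =>
    have h0 : 0 ≤ bsc r := zero_le_one.trans ih
    have h1 : 0 ≤ 2 ^ r * (bsc r * bsc r) := by positivity
    unfold bsc
    linarith

lemma tr_dg (r : ℕ) : ∀ {L : Type} [Fintype L], TR S k (gb S k) r L (bsc r) (dg S k L) := by
  have hμ : ∀ (z : ι → ℝ) (σ : X), 0 ≤ gb S k z σ := fun z σ => (gp_pos k S σ z).le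
  induction r with
  | zero =>
    intro L _
    exact rep_dg
  | succ r ih =>
    intro L _
    refine ⟨rep_dg.mono (one_le_bsc _) hμ, _, fun e f => ?_,
      ((ih (L := Option L)).add (((TR.mul (ih (L := L)) (ih (L := Unit)) hμ).reidx
        (mv3 L)).smul (-1))).mono ?_ hμ⟩
    · refine (pd_av k S f _).congr fun z => ?_
      have e1 : dg S k (Option L) (oc f e) z =
          av k S (fun σ => (∏ l, S (e l) σ) * S f σ) z := by
        unfold dg
        congr 1
        funext σ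
        rw [Fintype.prod_option]
        exact mul_comm _ _
      have e2 : fm (dg S k L) (dg S k Unit) (fun l => oc f e ((mv3 L) l)) z =
          av k S (fun σ => ∏ l, S (e l) σ) z * av k S (S f) z := by
        show dg S k L e z * dg S k Unit (fun _ => f) z = _
        unfold dg
        simp
      rw [e1, e2]
      ring
    · have h7 : |(-1 : ℝ)| = 1 := by norm_num
      rw [h7, one_mul]
      exact le_of_eq rfl

end base

end Vale.Agent.P146.H89
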